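import Mathlib

/-! P225 C2: a bracket-closed space containing enough symmetric rank-one maps contains every
trace-zero map. -/

namespace Vale.Agent.P225.LieFull

variable {V : Type*} [AddCommGroup V] [Module ℂ V]

/-- `w ↦ B(y,w) x`. -/
def rk (B : V →ₗ[ℂ] V →ₗ[ℂ] ℂ) (x y : V) : Module.End ℂ V := (B y).smulRight x

theorem rk_mul (B : V →ₗ[ℂ] V →ₗ[ℂ] ℂ) (x y p q : V) :
    rk B x y * rk B p q = B y p • rk B x q := by
  ext w
  simp [rk, smul_smul, mul_comm]

theorem rk_add_left (B : V →ₗ[ℂ] V →ₗ[ℂ] ℂ) (x x' y : V) :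
    rk B (x + x') y = rk B x y + rk B x' y := by
  ext w; simp [rk, smul_add]

theorem rk_add_right (B : V →ₗ[ℂ] V →ₗ[ℂ] ℂ) (x y y' : V) :
    rk B x (y + y') = rk B x y + rk B x y' := by
  ext w; simp [rk, add_smul]

theorem rk_smul_left (B : V →ₗ[ℂ] V →ₗ[ℂ] ℂ) (a : ℂ) (x y : V) :
    rk B (a • x) y = a • rk B x y := by
  ext w; simp [rk, smul_smul, mul_comm]

theorem rk_smul_right (B : V →ₗ[ℂ] V →ₗ[ℂ] ℂ) (a : ℂ) (x y : V) :
    rk B x (a • y) = a • rk B x y := by
  ext w; simp [rk, smul_smul]

/-- The generation theorem. -/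
theorem traceless_mem [FiniteDimensional ℂ V] {ι : Type*} (v : ι → V)
    (B : V →ₗ[ℂ] V →ₗ[ℂ] ℂ) (hB : ∀ x y, B x y = B y x)
    (hnd : ∀ x, (∀ y, B x y = 0) → x = 0)
    (hv : ∀ a, v a ≠ 0)
    (hstar : ∀ a, Submodule.span ℂ {x | ∃ b, B (v a) (v b) ≠ 0 ∧ x = v b} = ⊤)
    (hne : Nonempty ι)
    (k : Submodule ℂ (Module.End ℂ V))
    (hk : ∀ X ∈ k, ∀ Y ∈ k, X * Y - Y * X ∈ k)
    (hE : ∀ a, rk B (v a) (v a) ∈ k) :
    ∀ X : Module.End ℂ V, LinearMap.trace ℂ V X = 0 → X ∈ k := by
  classical
  obtain ⟨a₀⟩ := hne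
  have hspan : Submodule.span ℂ (Set.range v) = ⊤ := by
    refine top_le_iff.mp ((hstar a₀).ge.trans (Submodule.span_mono ?_))
    rintro x ⟨b, -, rfl⟩
    exact ⟨b, rfl⟩
  -- all skew maps
  have hKab : ∀ a y, rk B (v a) y - rk B y (v a) ∈ k := by
    intro a y
    have hy : y ∈ Submodule.span ℂ {x | ∃ b, B (v a) (v b) ≠ 0 ∧ x = v b} := by
      rw [hstar a]; trivial
    induction hy using Submodule.span_induction with
    | mem x hx =>
      obtain ⟨b, hb, rfl⟩ := hx
      have h := hk _ (hE a) _ (hE b)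
      rw [rk_mul, rk_mul, hB (v b) (v a), ← smul_sub] at h
      simpa [smul_smul, hb] using k.smul_mem (B (v a) (v b))⁻¹ h
    | zero => simp [rk]
    | add x y _ _ hx hy =>
      have := k.add_mem hx hy
      rw [rk_add_right, rk_add_left]
      convert this using 1
      abel
    | smul c x _ hx =>
      rw [rk_smul_right, rk_smul_left, ← smul_sub]
      exact k.smul_mem c hx
  have hK : ∀ x y, rk B x y - rk B y x ∈ k := by
    intro x y
    have hx : x ∈ Submodule.span ℂ (Set.range v) := by rw [hspan]; trivial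
    induction hx using Submodule.span_induction with
    | mem x hx => obtain ⟨a, rfl⟩ := hx; exact hKab a y
    | zero => simp [rk]
    | add p q _ _ hp hq =>
      have := k.add_mem hp hq
      rw [rk_add_right, rk_add_left]
      convert this using 1
      abel
    | smul c p _ hp =>
      rw [rk_smul_right, rk_smul_left, ← smul_sub]
      exact k.smul_mem c hp
  -- symmetric maps with an orthogonal cone leg
  have hS : ∀ c x, B (v c) x = 0 → rk B x (v c) + rk B (v c) x ∈ k := by
    intro c x hx
    obtain ⟨d, hd⟩ : ∃ d, B (v c) d ≠ 0 := by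
      by_contra h
      push Not at h
      exact hv c (hnd _ h)
    have h := hk _ (hK x d) _ (hE c)
    rw [sub_mul, mul_sub, rk_mul, rk_mul, rk_mul, rk_mul, hB x (v c), hx] at h
    have h2 : B (v c) d • (rk B x (v c) + rk B (v c) x) ∈ k := by
      convert h using 1
      rw [hB d (v c), smul_add, zero_smul, zero_smul]
      abel
    simpa [smul_smul, hd] using k.smul_mem (B (v c) d)⁻¹ h2
  intro X hX
  by_contra hXk
  obtain ⟨f, hfX, hfk⟩ := Submodule.exists_dual_map_eq_bot_of_notMem hXk inferInstance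
  have hf : ∀ Y ∈ k, f Y = 0 := by
    intro Y hY
    have : f Y ∈ k.map f := Submodule.mem_map_of_mem hY
    simpa [hfk] using this
  have hsymm : ∀ x y, f (rk B x y) = f (rk B y x) := by
    intro x y
    have := hf _ (hK x y)
    rwa [map_sub, sub_eq_zero] at this
  -- eigenvector property
  have heig : ∀ c, ∃ α, ∀ x, f (rk B x (v c)) = α * B x (v c) := by
    intro c
    obtain ⟨d, hd⟩ : ∃ d, B (v c) d ≠ 0 := by
      by_contra h
      push Not at h
      exact hv c (hnd _ h)
    refine ⟨f (rk B d (v c)) / B (v c) d, fun x => ?_⟩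
    set t := B (v c) x / B (v c) d with ht
    have h0 : B (v c) (x - t • d) = 0 := by
      simp [ht, hd]
    have h1 := hf _ (hS c _ h0)
    rw [map_add, hsymm (v c)] at h1
    have h2 : f (rk B (x - t • d) (v c)) = 0 := by linear_combination (1 / 2 : ℂ) * h1
    have h3 : rk B x (v c) = rk B (x - t • d) (v c) + t • rk B d (v c) := by
      rw [← rk_smul_left, ← rk_add_left, sub_add_cancel]
    rw [h3, map_add, h2, map_smul, zero_add, smul_eq_mul, ht, hB x (v c)]
    field_simp
  choose α hα using heig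
  have hlink : ∀ a b, B (v a) (v b) ≠ 0 → α a = α b := by
    intro a b hab
    have h1 := hα a (v b)
    have h2 := hα b (v a)
    rw [hsymm (v a) (v b)] at h2
    rw [h1, hB (v b) (v a)] at h2
    exact mul_right_cancel₀ hab h2
  have hconst : ∀ a, α a = α a₀ := by
    intro a
    obtain ⟨c, hc1, hc2⟩ : ∃ c, B (v a₀) (v c) ≠ 0 ∧ B (v a) (v c) ≠ 0 := by
      by_contra h
      push Not at h
      refine hv a (hnd _ fun y => ?_)
      have hy : y ∈ Submodule.span ℂ {x | ∃ b, B (v a₀) (v b) ≠ 0 ∧ x = v b} := by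
        rw [hstar a₀]; trivial
      induction hy using Submodule.span_induction with
      | mem x hx => obtain ⟨b, hb, rfl⟩ := hx; exact h b hb
      | zero => simp
      | add p q _ _ hp hq => simp [hp, hq]
      | smul c p _ hp => simp [hp]
    rw [hlink a c hc2, ← hlink a₀ c hc1]
  have hfB : ∀ x y, f (rk B x y) = α a₀ * B x y := by
    intro x y
    have hy : y ∈ Submodule.span ℂ (Set.range v) := by rw [hspan]; trivial
    induction hy using Submodule.span_induction with
    | mem y hy => obtain ⟨b, rfl⟩ := hy; rw [hα b x, hconst b]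
    | zero => simp [rk]
    | add p q _ _ hp hq => rw [rk_add_right, map_add, hp, hq, map_add]; ring
    | smul c p _ hp => rw [rk_smul_right, map_smul, hp, map_smul, smul_eq_mul, smul_eq_mul]; ring
  -- decompose X
  have hinj : Function.Injective B := by
    intro x y hxy
    have : x - y = 0 := hnd _ fun z => by simp [hxy]
    exact sub_eq_zero.mp this
  have hsurj : Function.Surjective B := by
    have e : Module.finrank ℂ V = Module.finrank ℂ (Module.Dual ℂ V) :=
      (Subspace.dual_finrank_eq).symm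
    exact (LinearMap.injective_iff_surjective_of_finrank_eq_finrank e).mp hinj
  let b := Module.finBasis ℂ V
  choose q hq using fun i => hsurj (b.coord i)
  have hdec : X = ∑ i, rk B (X (b i)) (q i) := by
    refine b.ext fun i => ?_
    simp [rk, LinearMap.sum_apply, hq, Finsupp.single_apply, eq_comm]
  have htr : ∀ x y, LinearMap.trace ℂ V (rk B x y) = B x y := by
    intro x y
    rw [rk, LinearMap.trace_smulRight, hB x y]
  apply hfX
  have : f X = α a₀ * LinearMap.trace ℂ V X := by
    rw [hdec]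
    simp only [map_sum, hfB, htr, Finset.mul_sum]
  rw [this, hX, mul_zero]

end Vale.Agent.P225.LieFull
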