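import Vale.Agent.P225.LieFull.Cone

/-! P225 C2: powers of orbit vectors span, and the induced symmetric form. -/

open scoped BigOperators Matrix
open MvPolynomial

namespace Vale.Agent.P225.LieFull

variable {j : ℕ}

theorem lin_pow_hom {n : ℕ} (b : Fin n → ℂ) (L : ℕ) : (lin b ^ L : CP n).IsHomogeneous L := by
  have h : (lin b).IsHomogeneous 1 := by
    rw [lin_apply]
    exact IsHomogeneous.sum _ _ _ fun i _ =>
      (homogeneousSubmodule _ ℂ 1).smul_mem _ (isHomogeneous_X ℂ i)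
  simpa using h.pow L

theorem pderiv_lin {n : ℕ} (b : Fin n → ℂ) (i : Fin n) : pderiv i (lin b : CP n) = C (b i) := by
  simp [lin_apply, map_sum, pderiv_X, Pi.single_apply, smul_eq_C_mul]

theorem lin_pow_mem_V {n : ℕ} {b : Fin n → ℂ} (hb : b ⬝ᵥ b = 0) (L : ℕ) :
    (lin b ^ L : CP n) ∈ V n L := by
  refine mem_V.mpr ⟨lin_pow_hom b L, ?_⟩
  rw [lapC_apply]
  simp only [pderiv_pow, pderiv_lin, Derivation.leibniz, pderiv_C, smul_eq_mul,
    Derivation.map_natCast, mul_zero, add_zero, zero_add]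
  have : ∀ i, C (b i) * ((L : CP n) * (((L - 1 : ℕ) : CP n) * lin b ^ (L - 1 - 1) * C (b i))) =
      C (b i * b i) * ((L : CP n) * ((L - 1 : ℕ) : CP n) * lin b ^ (L - 1 - 1)) := by
    intro i; rw [map_mul]; ring
  simp only [this, ← Finset.sum_mul, ← map_sum]
  rw [show (∑ i, b i * b i) = 0 from hb, map_zero, zero_mul]

/-- Evaluation is represented by a functional applied to powers. -/
theorem apolar {n : ℕ} : ∀ d (f : CP n), f.IsHomogeneous d →
    ∃ Φ : CP n →ₗ[ℂ] ℂ, ∀ b, Φ (lin b ^ d) = eval b f := by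
  refine hom_induction _ ?_ ?_ ?_ ?_ ?_
  · intro d; exact ⟨0, by simp⟩
  · rintro d f g ⟨Φ, h⟩ ⟨Ψ, h'⟩; exact ⟨Φ + Ψ, fun b => by simp [h, h']⟩
  · rintro d c f ⟨Φ, h⟩; exact ⟨c • Φ, fun b => by simp [h]⟩
  · exact ⟨(aeval (0 : Fin n → ℂ)).toLinearMap, fun b => by simp⟩
  · rintro d i g - ⟨Φ, h⟩
    refine ⟨((d + 1 : ℕ) : ℂ)⁻¹ • Φ.comp (pderiv i).toLinearMap, fun b => ?_⟩
    simp only [LinearMap.smul_apply, LinearMap.comp_apply, Derivation.coeFn_coe, pderiv_pow,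
      pderiv_lin, Nat.add_sub_cancel]
    rw [show ((d + 1 : ℕ) : CP n) * lin b ^ d * C (b i) =
      (((d + 1 : ℕ) : ℂ) * b i) • lin b ^ d by rw [smul_eq_C_mul, map_mul, map_natCast]; ring]
    rw [map_smul, h, smul_eq_mul, smul_eq_mul, map_mul, eval_X, ← mul_assoc, ← mul_assoc,
      inv_mul_cancel₀ (by exact_mod_cast Nat.succ_ne_zero d), one_mul]

theorem exists_real_perp (hj : 1 ≤ j) (η : Fin (amb j) → ℂ) :
    ∃ y : Fin (amb j) → ℝ, y ≠ 0 ∧ (fun i => (y i : ℂ)) ⬝ᵥ η = 0 := by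
  let T : (Fin (amb j) → ℝ) →ₗ[ℝ] ℂ :=
    { toFun := fun y => (fun i => (y i : ℂ)) ⬝ᵥ η
      map_add' := fun p q => by simp [dotProduct, add_mul, Finset.sum_add_distrib]
      map_smul' := fun c p => by simp [dotProduct, mul_assoc, Finset.mul_sum] }
  have h : LinearMap.ker T ≠ ⊥ := LinearMap.ker_ne_bot_of_finrank_lt (by
    rw [Complex.finrank_real_complex, Module.finrank_fin_fun]; simp only [amb]; omega)
  obtain ⟨y, hy, hy0⟩ := (Submodule.ne_bot_iff _).mp h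
  exact ⟨y, hy0, hy⟩

theorem exists_real_nonperp {n : ℕ} {a η : Fin n → ℂ} (ha : a ≠ 0) (hη : η ≠ 0) :
    ∃ y : Fin n → ℝ, (fun i => (y i : ℂ)) ⬝ᵥ η ≠ 0 ∧ a ⬝ᵥ (fun i => (y i : ℂ)) ≠ 0 := by
  obtain ⟨p, hp⟩ : ∃ p, η p ≠ 0 := Function.ne_iff.mp hη
  obtain ⟨q, hq⟩ : ∃ q, a q ≠ 0 := Function.ne_iff.mp ha
  have e : ∀ k : Fin n, (fun i => ((Pi.single k (1 : ℝ) : Fin n → ℝ) i : ℂ)) = Pi.single k 1 := by
    intro k; ext i; simp [Pi.single_apply, apply_ite]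
  by_cases h1 : a p = 0
  · by_cases h2 : η q = 0
    · refine ⟨Pi.single p 1 + Pi.single q 1, ?_⟩
      have e2 : (fun i => ((Pi.single p (1 : ℝ) + Pi.single q 1 : Fin n → ℝ) i : ℂ)) =
          Pi.single p 1 + Pi.single q 1 := by
        ext i; simp only [Pi.add_apply, Pi.single_apply]; split_ifs <;> simp
      rw [e2, add_dotProduct, dotProduct_add]
      simp [h1, h2, hp, hq]
    · exact ⟨Pi.single q 1, by simp [e, h2], by simp [e, hq]⟩
  · exact ⟨Pi.single p 1, by simp [e, hp], by simp [e, h1]⟩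

theorem hh_mulVec {n : ℕ} (y : Fin n → ℝ) (η : Fin n → ℂ) :
    cMat (hh y) *ᵥ η = (((y ⬝ᵥ y : ℝ) : ℂ)) • η -
      (2 * ((fun i => (y i : ℂ)) ⬝ᵥ η)) • (fun i => (y i : ℂ)) := by
  have : cMat (hh y) = ((y ⬝ᵥ y : ℝ) : ℂ) • (1 : Matrix (Fin n) (Fin n) ℂ) -
      (2 : ℂ) • Matrix.vecMulVec (fun i => (y i : ℂ)) (fun i => (y i : ℂ)) := by
    ext i k
    simp [cMat, hh, Matrix.one_apply, Matrix.vecMulVec_apply, apply_ite]
  rw [this, Matrix.sub_mulVec, Matrix.smul_mulVec, Matrix.one_mulVec, Matrix.smul_mulVec,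
    Matrix.vecMulVec_mulVec]
  ext i
  simp
  ring

/-- A harmonic polynomial vanishing on the part of the orbit not orthogonal to `a` is zero. -/
theorem vanish_star (hj : 1 ≤ j) {L : ℕ} {g : CP (amb j)} (hg : g ∈ V (amb j) L)
    {a : Fin (amb j) → ℂ} (ha : a ∈ Om j)
    (h : ∀ b ∈ Om j, a ⬝ᵥ b ≠ 0 → eval b g = 0) : g = 0 := by
  refine vanish hj L g hg fun η hη => ?_
  by_cases haη : a ⬝ᵥ η = 0
  swap
  · exact h η hη haη
  obtain ⟨y0, hy0, hy0η⟩ := exists_real_perp hj η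
  obtain ⟨y1, hy1η, hay1⟩ := exists_real_nonperp (Om_ne ha) (Om_ne hη)
  set Y0 : Fin (amb j) → ℂ := fun i => (y0 i : ℂ)
  set Y1 : Fin (amb j) → ℂ := fun i => (y1 i : ℂ)
  set e := Y1 ⬝ᵥ η
  set w0 := ((y0 ⬝ᵥ y0 : ℝ) : ℂ) • η
  set w1 := ((2 * (y0 ⬝ᵥ y1) : ℝ) : ℂ) • η - (2 * e) • Y0
  set w2 := ((y1 ⬝ᵥ y1 : ℝ) : ℂ) • η - (2 * e) • Y1
  have hu : ∀ s : ℝ, cMat (hh (y0 + s • y1)) *ᵥ η = w0 + (s : ℂ) • w1 + (s : ℂ) ^ 2 • w2 := by
    intro s
    have hY : (fun i => ((y0 + s • y1) i : ℂ)) = Y0 + (s : ℂ) • Y1 := by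
      ext i; simp [Y0, Y1]
    have hd : (y0 + s • y1) ⬝ᵥ (y0 + s • y1) =
        y0 ⬝ᵥ y0 + s * (2 * (y0 ⬝ᵥ y1)) + s ^ 2 * (y1 ⬝ᵥ y1) := by
      simp [dotProduct_comm y1 y0]
      ring
    rw [hh_mulVec, hY, hd, add_dotProduct, smul_dotProduct, hy0η]
    ext i
    simp [w0, w1, w2, e]
    ring
  set P : Polynomial ℂ := aeval (qcurve w0 w1 w2) g
  set Q : Polynomial ℂ := ∑ i, Polynomial.C (a i) * qcurve w0 w1 w2 i
  have hQ : ∀ s : ℂ, Q.eval s = a ⬝ᵥ (w0 + s • w1 + s ^ 2 • w2) := by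
    intro s
    rw [← qcurve_eval]
    simp [Q, Polynomial.eval_finsetSum, dotProduct]
  have hPQ : P * Q = 0 := by
    refine poly_zero_of_real _ fun s => ?_
    rw [Polynomial.eval_mul, hQ, show P.eval (s : ℂ) = _ from eval_aeval_poly _ _ _, qcurve_eval,
      ← hu]
    rcases eq_or_ne ((y0 + s • y1) ⬝ᵥ (y0 + s • y1)) 0 with h0 | h0
    · have h0' : y0 + s • y1 = 0 := dotProduct_self_eq_zero.mp h0
      simp [h0', hh_mulVec, dotProduct]
    · obtain ⟨ζ, hζ, e2⟩ := Om_reflect hη h0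
      rw [e2]
      by_cases hz : a ⬝ᵥ ζ = 0
      · simp [dotProduct_smul, hz]
      · rw [eval_smul_point (mem_V.mp hg).1, h ζ hζ hz]; simp
  have hQ2 : Q.coeff 2 = a ⬝ᵥ w2 := by
    simp [Q, qcurve, Polynomial.finsetSum_coeff, Polynomial.coeff_C_mul, Polynomial.coeff_C,
      dotProduct]
  have hQ0 : Q ≠ 0 := by
    intro h0
    rw [h0, Polynomial.coeff_zero] at hQ2
    simp [w2, e, dotProduct_sub, dotProduct_smul, haη, hy1η, hay1] at hQ2
  have hP0 : P.eval 0 = 0 := by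
    rw [(mul_eq_zero.mp hPQ).resolve_right hQ0, Polynomial.eval_zero]
  rw [show P.eval (0 : ℂ) = _ from eval_aeval_poly _ _ _, qcurve_eval, zero_smul, add_zero,
    zero_pow two_ne_zero, zero_smul, add_zero, eval_smul_point (mem_V.mp hg).1] at hP0
  refine (mul_eq_zero.mp hP0).resolve_left (pow_ne_zero _ ?_)
  exact Complex.ofReal_ne_zero.mpr fun h0 => hy0 (dotProduct_self_eq_zero.mp h0)

/-- Index type of the orbit. -/
abbrev OmT (j : ℕ) := {ζ : Fin (amb j) → ℂ // ζ ∈ Om j}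

/-- `(ζ·x)^L`. -/
noncomputable def vv (L : ℕ) (a : OmT j) : V (amb j) L :=
  ⟨lin a.1 ^ L, lin_pow_mem_V (Om_iso a.2) L⟩

/-- Evaluation at a point of the orbit. -/
noncomputable def ev (L : ℕ) (a : OmT j) : Module.Dual ℂ (V (amb j) L) where
  toFun f := eval a.1 f.1
  map_add' := by simp
  map_smul' := by simp

theorem ev_vv (L : ℕ) (a b : OmT j) : ev L a (vv L b) = (b.1 ⬝ᵥ a.1) ^ L := by
  simp [ev, vv, eval_lin]

theorem ev_span (hj : 1 ≤ j) (L : ℕ) :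
    Submodule.span ℂ (Set.range (ev L : OmT j → _)) = ⊤ := by
  have h0 : (Submodule.span ℂ (Set.range (ev L : OmT j → _))).dualCoannihilator = ⊥ := by
    rw [eq_bot_iff]
    intro f hf
    rw [Submodule.mem_bot]
    apply Subtype.ext
    refine vanish hj L _ f.2 fun ζ hζ => ?_
    exact (Submodule.mem_dualCoannihilator f).mp hf _
      (Submodule.subset_span ⟨⟨ζ, hζ⟩, rfl⟩)
  rw [← Subspace.dualCoannihilator_dualAnnihilator_eq
    (W := Submodule.span ℂ (Set.range (ev L : OmT j → _))), h0,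
    Submodule.dualAnnihilator_bot]

theorem sum_ev_zero (L : ℕ) (c : OmT j →₀ ℂ)
    (h : Finsupp.linearCombination ℂ (vv L) c = 0) :
    Finsupp.linearCombination ℂ (ev L) c = 0 := by
  refine LinearMap.ext fun f => ?_
  obtain ⟨Φ, hΦ⟩ := apolar L f.1 (mem_V.mp f.2).1
  have h2 := congrArg (fun v : V (amb j) L => Φ v.1) h
  simp only [Finsupp.linearCombination_apply, Finsupp.sum, Submodule.coe_sum, Submodule.coe_smul,
    map_sum, map_smul, vv, hΦ, Submodule.coe_zero, map_zero] at h2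
  simp only [Finsupp.linearCombination_apply, Finsupp.sum, LinearMap.sum_apply,
    LinearMap.smul_apply, LinearMap.zero_apply]
  exact h2

theorem star_span (hj : 1 ≤ j) (L : ℕ) (a : OmT j) :
    Submodule.span ℂ {x : V (amb j) L | ∃ b : OmT j, a.1 ⬝ᵥ b.1 ≠ 0 ∧ x = vv L b} = ⊤ := by
  by_contra hne
  obtain ⟨v, hv⟩ : ∃ v, v ∉ Submodule.span ℂ
      {x : V (amb j) L | ∃ b : OmT j, a.1 ⬝ᵥ b.1 ≠ 0 ∧ x = vv L b} := by
    by_contra h
    push Not at h
    exact hne (Submodule.eq_top_iff'.mpr h)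
  obtain ⟨f, hfv, hfk⟩ := Submodule.exists_dual_map_eq_bot_of_notMem hv inferInstance
  have hf : f ∈ Submodule.span ℂ (Set.range (ev L : OmT j → _)) := by rw [ev_span hj L]; trivial
  obtain ⟨c, hc⟩ := Finsupp.mem_span_range_iff_exists_finsupp.mp hf
  have hc' : Finsupp.linearCombination ℂ (ev L) c = f := hc
  have hg : Finsupp.linearCombination ℂ (vv L) c = 0 := by
    apply Subtype.ext
    refine vanish_star hj (Finsupp.linearCombination ℂ (vv L) c).2 a.2 fun b hb hab => ?_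
    have hb0 : f (vv L ⟨b, hb⟩) = 0 := by
      have : f (vv L ⟨b, hb⟩) ∈ (Submodule.span ℂ
          {x : V (amb j) L | ∃ b : OmT j, a.1 ⬝ᵥ b.1 ≠ 0 ∧ x = vv L b}).map f :=
        Submodule.mem_map_of_mem (Submodule.subset_span ⟨⟨b, hb⟩, hab, rfl⟩)
      rw [hfk] at this
      exact (Submodule.mem_bot ℂ).mp this
    rw [← hb0, ← hc']
    simp only [Finsupp.linearCombination_apply, Finsupp.sum, Submodule.coe_sum, Submodule.coe_smul,
      map_sum, LinearMap.sum_apply, LinearMap.smul_apply, ev_vv]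
    refine Finset.sum_congr rfl fun x _ => ?_
    simp [vv, eval_lin, dotProduct_comm]
  apply hfv
  rw [← hc', sum_ev_zero L c hg, LinearMap.zero_apply]

theorem exists_form (hj : 1 ≤ j) (L : ℕ) :
    ∃ B : V (amb j) L →ₗ[ℂ] V (amb j) L →ₗ[ℂ] ℂ, (∀ x y, B x y = B y x) ∧
      (∀ x, (∀ y, B x y = 0) → x = 0) ∧ ∀ a : OmT j, B (vv L a) = ev L a := by
  have hsp : Submodule.span ℂ (Set.range (vv L : OmT j → V (amb j) L)) = ⊤ := by
    refine top_le_iff.mp ((star_span hj L ⟨vz j, vz_mem⟩).ge.trans (Submodule.span_mono ?_))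
    rintro x ⟨b, -, rfl⟩
    exact ⟨b, rfl⟩
  set S := Finsupp.linearCombination ℂ (vv L : OmT j → V (amb j) L)
  obtain ⟨g, hg⟩ := LinearMap.exists_rightInverse_of_surjective S
    (by rw [Finsupp.range_linearCombination, hsp])
  set U := Finsupp.linearCombination ℂ (ev L : OmT j → _)
  have hB : ∀ a, (U ∘ₗ g) (vv L a) = ev L a := by
    intro a
    have h1 : S (g (vv L a) - Finsupp.single a 1) = 0 := by
      rw [map_sub, ← LinearMap.comp_apply, hg]
      simp [S]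
    have h2 := sum_ev_zero L _ h1
    rw [map_sub, sub_eq_zero] at h2
    rw [LinearMap.comp_apply]
    exact h2.trans (by simp)
  have hsymm : ∀ x y, (U ∘ₗ g) x y = (U ∘ₗ g) y x := by
    have h : (U ∘ₗ g).flip = U ∘ₗ g := by
      refine LinearMap.ext_on_range hsp fun a => LinearMap.ext_on_range hsp fun b => ?_
      rw [LinearMap.flip_apply, hB, hB, ev_vv, ev_vv, dotProduct_comm]
    intro x y
    exact (LinearMap.congr_fun₂ h y x)
  refine ⟨U ∘ₗ g, hsymm, fun x hx => ?_, hB⟩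
  apply Subtype.ext
  refine vanish hj L _ x.2 fun ζ hζ => ?_
  have := hx (vv L ⟨ζ, hζ⟩)
  rw [hsymm, hB] at this
  exact this

theorem vv_ne (hj : 1 ≤ j) (L : ℕ) (a : OmT j) : vv L a ≠ 0 := by
  intro h
  have h2 : lin a.1 = 0 := by
    have := congrArg Subtype.val h
    exact pow_eq_zero_iff'.mp this |>.1
  obtain ⟨i, hi⟩ := Function.ne_iff.mp (Om_ne a.2)
  have := congrArg (pderiv i) h2
  rw [pderiv_lin, map_zero] at this
  exact hi (by simpa using this)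

end Vale.Agent.P225.LieFull
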