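import Vale.Agent.P225.LieFull.Weights

/-! P225 C2: complex harmonic polynomials, the isotropic orbit, spanning by powers. -/

open scoped BigOperators Matrix
open MvPolynomial

namespace Vale.Agent.P225.LieFull

variable {n : ℕ}

noncomputable def lapC (n : ℕ) : CE n :=
  ∑ i : Fin n, (pderiv i).toLinearMap.comp (pderiv i).toLinearMap

theorem lapC_apply (f : CP n) : lapC n f = ∑ i, pderiv i (pderiv i f) := by
  simp [lapC, LinearMap.sum_apply]

theorem pderiv_comm_C (a b : Fin n) (f : CP n) :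
    pderiv a (pderiv b f) = pderiv b (pderiv a f) := by
  have key : ⁅(pderiv a : Derivation ℂ (CP n) (CP n)), pderiv b⁆ = 0 := derivation_ext fun k => by
    rw [Derivation.commutator_apply, pderiv_X, pderiv_X]
    simp [Pi.single_apply, apply_ite]
  have h := congrArg (fun D : Derivation ℂ (CP n) (CP n) => D f) key
  simpa [Derivation.commutator_apply, sub_eq_zero] using h

theorem lapC_pderiv (b : Fin n) (f : CP n) : lapC n (pderiv b f) = pderiv b (lapC n f) := by
  simp only [lapC_apply, map_sum]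
  exact Finset.sum_congr rfl fun i _ => by
    rw [pderiv_comm_C i b f, pderiv_comm_C i b (pderiv i f)]

/-- Complex harmonic polynomials of degree `L`. -/
noncomputable def V (n L : ℕ) : Submodule ℂ (CP n) :=
  homogeneousSubmodule (Fin n) ℂ L ⊓ LinearMap.ker (lapC n)

theorem mem_V {L : ℕ} {f : CP n} : f ∈ V n L ↔ f.IsHomogeneous L ∧ lapC n f = 0 := Iff.rfl

theorem V_le (n L : ℕ) : V n L ≤ restrictTotalDegree (Fin n) ℂ L := by
  intro f hf
  rw [mem_restrictTotalDegree]
  exact (mem_V.mp hf).1.totalDegree_le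

instance finite_V (n L : ℕ) : Module.Finite ℂ (V n L) :=
  Module.Finite.of_injective (Submodule.inclusion (V_le n L)) (Submodule.inclusion_injective _)

instance finite_harm (n L : ℕ) : Module.Finite ℝ (harm n L) := by
  have h : harm n L ≤ restrictTotalDegree (Fin n) ℝ L := fun f hf => by
    rw [mem_restrictTotalDegree]
    exact IsHomogeneous.totalDegree_le hf.1
  exact Module.Finite.of_injective (Submodule.inclusion h) (Submodule.inclusion_injective _)

theorem iota_smul (r : ℝ) (f : MvPolynomial (Fin n) ℝ) : iota (r • f) = (r : ℂ) • iota f := by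
  rw [smul_eq_C_mul, map_mul, map_C, smul_eq_C_mul]
  rfl

theorem exists_re_im (f : CP n) : ∃ g h : MvPolynomial (Fin n) ℝ,
    f = iota g + Complex.I • iota h := by
  induction f using MvPolynomial.induction_on' with
  | monomial e c =>
    refine ⟨monomial e c.re, monomial e c.im, ?_⟩
    rw [map_monomial, map_monomial, smul_monomial, ← map_add]
    congr 1
    rw [smul_eq_mul, mul_comm]
    exact (Complex.re_add_im c).symm
  | add p q hp hq =>
    obtain ⟨g, h, rfl⟩ := hp
    obtain ⟨g', h', rfl⟩ := hq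
    exact ⟨g + g', h + h', by rw [map_add, map_add, smul_add]; abel⟩

theorem re_im_unique {g h : MvPolynomial (Fin n) ℝ} (e : iota g + Complex.I • iota h = 0) :
    g = 0 ∧ h = 0 := by
  have hc : ∀ d, (((coeff d g : ℝ) : ℂ) + Complex.I * ((coeff d h : ℝ) : ℂ)) = 0 := by
    intro d
    have := congrArg (coeff d) e
    simpa [coeff_map, coeff_smul] using this
  constructor <;> ext d
  · simpa using congrArg Complex.re (hc d)
  · simpa using congrArg Complex.im (hc d)

theorem lapC_iota (g : MvPolynomial (Fin n) ℝ) : lapC n (iota g) = iota (polyLap n g) := by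
  simp [lapC_apply, polyLap, LinearMap.sum_apply, pderiv_map, map_sum]

theorem iota_mem_V {L : ℕ} {g : MvPolynomial (Fin n) ℝ} (hg : g ∈ harm n L) :
    iota g ∈ V n L := by
  refine mem_V.mpr ⟨IsHomogeneous.map hg.1 _, ?_⟩
  rw [lapC_iota, show polyLap n g = 0 from hg.2, map_zero]

theorem V_re_im {L : ℕ} {f : CP n} (hf : f ∈ V n L) : ∃ g h : MvPolynomial (Fin n) ℝ,
    g ∈ harm n L ∧ h ∈ harm n L ∧ f = iota g + Complex.I • iota h := by
  obtain ⟨g, h, rfl⟩ := exists_re_im f
  obtain ⟨h1, h2⟩ := mem_V.mp hf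
  rw [map_add, map_smul, lapC_iota, lapC_iota] at h2
  obtain ⟨hg, hh⟩ := re_im_unique h2
  have hc : ∀ d : Fin n →₀ ℕ, Finsupp.weight 1 d ≠ L → coeff d g = 0 ∧ coeff d h = 0 := by
    intro d hd
    have : (coeff d (iota g + Complex.I • iota h) : ℂ) = 0 :=
      by_contra fun hne => hd (h1 hne)
    rw [coeff_add, coeff_smul, coeff_map, coeff_map] at this
    exact ⟨by simpa using congrArg Complex.re this, by simpa using congrArg Complex.im this⟩
  refine ⟨g, h, ⟨?_, hg⟩, ⟨?_, hh⟩, rfl⟩ <;> intro d hd <;> by_contra hne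
  · exact hd (hc d hne).1
  · exact hd (hc d hne).2

theorem subst_hom {L : ℕ} {f : CP n} (hf : f.IsHomogeneous L) (R : Matrix (Fin n) (Fin n) ℂ) :
    (subst R f).IsHomogeneous L := by
  revert hf
  refine fun hf => hom_induction (fun d g => (subst R g).IsHomogeneous d) ?_ ?_ ?_ ?_ ?_ L f hf
  · intro d; rw [map_zero]; exact isHomogeneous_zero _ _ _
  · intro d p q hp hq; rw [map_add]; exact hp.add hq
  · intro d c p hp; rw [map_smul]; exact (homogeneousSubmodule _ ℂ d).smul_mem c hp
  · rw [map_one]; exact isHomogeneous_one _ _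
  · intro d i g _ hg
    rw [map_mul, subst_X, add_comm d 1, lin_apply]
    exact (IsHomogeneous.sum _ _ _ fun k _ =>
      (homogeneousSubmodule _ ℂ 1).smul_mem _ (isHomogeneous_X ℂ k)).mul hg

theorem eval_subst (R : Matrix (Fin n) (Fin n) ℂ) (x : Fin n → ℂ) (f : CP n) :
    eval x (subst R f) = eval (Rᵀ *ᵥ x) f := by
  induction f using MvPolynomial.induction_on with
  | C a => simp [← MvPolynomial.algebraMap_eq, Algebra.algebraMap_eq_smul_one]
  | add p q hp hq => simp [hp, hq]
  | mul_X p i hp =>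
    rw [map_mul, map_mul, map_mul, hp, subst_X, eval_lin, eval_X]
    rfl

theorem eval_smul_point {L : ℕ} {f : CP n} (hf : f.IsHomogeneous L) (c : ℂ) (x : Fin n → ℂ) :
    eval (c • x) f = c ^ L * eval x f := by
  refine hom_induction (fun d g => eval (c • x) g = c ^ d * eval x g) ?_ ?_ ?_ ?_ ?_ L f hf
  · intro d; simp
  · intro d p q hp hq; simp [hp, hq, mul_add]
  · intro d a p hp; simp [hp]; ring
  · simp
  · intro d i g _ hg; simp [hg]; ring

/-- Isotropic orbit. -/
def Om (j : ℕ) : Set (Fin (amb j) → ℂ) :=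
  {ζ | ∃ R : Matrix (Fin (amb j)) (Fin (amb j)) ℝ, Orth R ∧ ζ = cMat R *ᵥ vz j}

variable {j : ℕ}

theorem cMat_orth {R : Matrix (Fin n) (Fin n) ℝ} (hR : Orth R) : (cMat R)ᵀ * cMat R = 1 := by
  show (R.map _)ᵀ * R.map _ = 1
  rw [← Matrix.transpose_map, ← Matrix.map_mul, show Rᵀ * R = 1 from hR,
    Matrix.map_one _ (map_zero _) (map_one _)]

theorem vz_mem : vz j ∈ Om j :=
  ⟨1, by simp [Orth], by rw [cMat, Matrix.map_one _ (map_zero _) (map_one _), Matrix.one_mulVec]⟩

theorem Om_iso {ζ : Fin (amb j) → ℂ} (h : ζ ∈ Om j) : ζ ⬝ᵥ ζ = 0 := by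
  obtain ⟨R, hR, rfl⟩ := h
  rw [Matrix.dotProduct_mulVec, ← Matrix.mulVec_transpose, Matrix.mulVec_mulVec, cMat_orth hR,
    Matrix.one_mulVec, vz_vz]

theorem Om_ne {ζ : Fin (amb j) → ℂ} (h : ζ ∈ Om j) : ζ ≠ 0 := by
  obtain ⟨R, hR, rfl⟩ := h
  intro h0
  have := congrArg ((cMat R)ᵀ *ᵥ ·) h0
  simp only [Matrix.mulVec_mulVec, cMat_orth hR, Matrix.one_mulVec, Matrix.mulVec_zero] at this
  have h2 := congrFun this ⟨0, by simp only [amb]; omega⟩
  simp [vz, cv] at h2

theorem Om_reflect {ζ : Fin (amb j) → ℂ} (h : ζ ∈ Om j) {y : Fin (amb j) → ℝ}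
    (hy : y ⬝ᵥ y ≠ 0) : ∃ η ∈ Om j, cMat (hh y) *ᵥ ζ = ((y ⬝ᵥ y : ℝ) : ℂ) • η := by
  obtain ⟨R, hR, rfl⟩ := h
  refine ⟨cMat ((y ⬝ᵥ y)⁻¹ • hh y * R) *ᵥ vz j, ⟨_, ?_, rfl⟩, ?_⟩
  · rw [Orth, Matrix.transpose_mul, Matrix.mul_assoc, ← Matrix.mul_assoc _ _ R,
      show ((y ⬝ᵥ y)⁻¹ • hh y)ᵀ * ((y ⬝ᵥ y)⁻¹ • hh y) = 1 from orth_hh hy, Matrix.one_mul]
    exact hR
  · rw [Matrix.mulVec_mulVec, ← Matrix.smul_mulVec]
    congr 1
    rw [cMat, cMat, cMat, ← Matrix.map_mul]
    ext i k
    simp only [Matrix.smul_mul, Matrix.smul_apply, Matrix.map_apply, smul_eq_mul, map_mul]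
    rw [Complex.coe_algebraMap, ← mul_assoc, Complex.ofReal_inv,
      mul_inv_cancel₀ (Complex.ofReal_ne_zero.mpr hy), one_mul]

theorem deriv_aeval (u : Fin n → Polynomial ℂ) (g : CP n) :
    Polynomial.derivative (aeval u g) =
      ∑ i, aeval u (pderiv i g) * Polynomial.derivative (u i) := by
  induction g using MvPolynomial.induction_on with
  | C a => simp [← MvPolynomial.algebraMap_eq, Polynomial.algebraMap_eq]
  | add p q hp hq => simp [hp, hq, add_mul, Finset.sum_add_distrib]
  | mul_X p i hp =>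
    have e : ∀ k, aeval u (pderiv k (p * X i)) =
        aeval u (pderiv k p) * u i + if k = i then aeval u p else 0 := by
      intro k
      rw [Derivation.leibniz, pderiv_X]
      rcases eq_or_ne k i with rfl | h
      · simp; ring
      · simp [h, Ne.symm h]; ring
    rw [map_mul, Polynomial.derivative_mul, hp, aeval_X]
    simp only [e, add_mul, ite_mul, zero_mul, Finset.sum_add_distrib, Finset.sum_ite_eq',
      Finset.mem_univ, if_true, Finset.sum_mul]
    rw [Finset.sum_congr rfl fun k _ => mul_right_comm _ (Polynomial.derivative (u k)) (u i)]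

theorem eval_aeval_poly (u : Fin n → Polynomial ℂ) (s : ℂ) (g : CP n) :
    Polynomial.eval s (aeval u g) = eval (fun i => Polynomial.eval s (u i)) g := by
  induction g using MvPolynomial.induction_on with
  | C a => simp [← MvPolynomial.algebraMap_eq, Polynomial.algebraMap_eq,
      Algebra.algebraMap_eq_smul_one]
  | add p q hp hq => simp [hp, hq]
  | mul_X p i hp => simp [hp]

/-- A quadratic curve. -/
noncomputable def qcurve (w0 w1 w2 : Fin n → ℂ) : Fin n → Polynomial ℂ := fun i =>
  Polynomial.C (w0 i) + Polynomial.C (w1 i) * Polynomial.X + Polynomial.C (w2 i) * Polynomial.X ^ 2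

theorem qcurve_eval (w0 w1 w2 : Fin n → ℂ) (s : ℂ) :
    (fun i => Polynomial.eval s (qcurve w0 w1 w2 i)) = w0 + s • w1 + s ^ 2 • w2 := by
  ext i
  simp [qcurve]
  ring

theorem qcurve_deriv (w0 w1 w2 : Fin n → ℂ) (i : Fin n) :
    Polynomial.eval 0 (Polynomial.derivative (qcurve w0 w1 w2 i)) = w1 i := by
  simp [qcurve, Polynomial.derivative_X_pow]

theorem poly_zero_of_real (p : Polynomial ℂ) (h : ∀ s : ℝ, p.eval (s : ℂ) = 0) : p = 0 := by
  refine Polynomial.eq_zero_of_infinite_isRoot _ (Set.Infinite.mono ?_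
    (Set.infinite_range_of_injective Complex.ofReal_injective))
  rintro _ ⟨s, rfl⟩
  exact h s

theorem tangent {L : ℕ} (hL : L ≠ 0) {g : CP (amb j)} (hg : g.IsHomogeneous L)
    (h0 : ∀ ζ ∈ Om j, eval ζ g = 0) (a b : Fin (amb j)) {ζ : Fin (amb j) → ℂ} (hζ : ζ ∈ Om j) :
    ζ a * eval ζ (pderiv b g) - ζ b * eval ζ (pderiv a g) = 0 := by
  rcases eq_or_ne a b with rfl | hab
  · ring
  have hone : (Pi.single a (1 : ℝ) : Fin (amb j) → ℝ) ⬝ᵥ Pi.single a 1 = 1 := by simp
  obtain ⟨ζ', hζ', e⟩ := Om_reflect hζ (y := Pi.single a 1) (by rw [hone]; exact one_ne_zero)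
  rw [hone, Complex.ofReal_one, one_smul, hh_single] at e
  set u := qcurve (cMat (refl a) *ᵥ ζ') (cMat (refl1 a b) *ᵥ ζ') (cMat (refl b) *ᵥ ζ')
  have hmul : ∀ M N : Matrix (Fin (amb j)) (Fin (amb j)) ℝ, ∀ v, cMat M *ᵥ (cMat N *ᵥ v) =
      cMat (M * N) *ᵥ v := fun M N v => by
    rw [Matrix.mulVec_mulVec]; congr 1; exact Matrix.map_mul.symm
  have hp : aeval u g = 0 := poly_zero_of_real _ fun s => by
    rw [eval_aeval_poly, qcurve_eval]
    have hy : ((Pi.single a (1 : ℝ) + s • Pi.single b (1 : ℝ) : Fin (amb j) → ℝ) ⬝ᵥ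
        (Pi.single a 1 + s • Pi.single b 1)) ≠ 0 := by
      simp [dotProduct_add, hab, Ne.symm hab]
      intro h0; nlinarith [mul_self_nonneg s]
    obtain ⟨η, hη, e2⟩ := Om_reflect hζ' hy
    rw [hh_curve hab] at e2
    have : cMat (refl a) *ᵥ ζ' + (s : ℂ) • (cMat (refl1 a b) *ᵥ ζ') +
        (s : ℂ) ^ 2 • (cMat (refl b) *ᵥ ζ') =
        cMat (refl a + s • refl1 a b + s ^ 2 • refl b) *ᵥ ζ' := by
      rw [← Matrix.smul_mulVec, ← Matrix.smul_mulVec, ← Matrix.add_mulVec, ← Matrix.add_mulVec]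
      congr 1
      ext i k; simp [cMat]
    rw [this, e2, eval_smul_point hg, h0 η hη, mul_zero]
  have hd : ∑ i, eval (cMat (refl a) *ᵥ ζ') (pderiv i g) * (cMat (refl1 a b) *ᵥ ζ') i = 0 := by
    have h := congrArg (fun p => Polynomial.eval 0 (Polynomial.derivative p)) hp
    rw [deriv_aeval, Polynomial.eval_finsetSum, Polynomial.derivative_zero,
      Polynomial.eval_zero] at h
    rw [← h]
    refine Finset.sum_congr rfl fun i _ => ?_
    rw [Polynomial.eval_mul, eval_aeval_poly, qcurve_eval, qcurve_deriv, zero_smul, add_zero,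
      zero_pow two_ne_zero, zero_smul, add_zero]
  rw [← e, hmul, hmul, refl_sq, cMat, Matrix.map_one _ (map_zero _) (map_one _),
    Matrix.one_mulVec, refl1_mul hab] at hd
  have hrow : ∀ i, (cMat (-(2 : ℝ) • skewE a b) *ᵥ ζ) i =
      -2 * ((if i = a then ζ b else 0) - (if i = b then ζ a else 0)) := by
    intro i
    have h1 : cMat (-(2 : ℝ) • skewE a b) =
        (-2 : ℂ) • (Matrix.single a b (1 : ℂ) - Matrix.single b a 1) := by
      ext i k
      simp only [cMat, skewE, Matrix.map_apply, Matrix.smul_apply, Matrix.sub_apply,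
        Matrix.single_apply, smul_eq_mul, map_mul, map_sub, map_neg, map_ofNat]
      split_ifs <;> simp
    rw [h1, Matrix.smul_mulVec, Matrix.sub_mulVec, Matrix.single_mulVec, Matrix.single_mulVec,
      Pi.smul_apply, Pi.sub_apply, smul_eq_mul]
    by_cases h2 : i = a <;> by_cases h3 : i = b <;> simp [h2, h3, hab, Ne.symm hab]
  simp only [hrow, mul_sub, Finset.sum_sub_distrib, mul_ite, mul_zero,
    Finset.sum_ite_eq', Finset.mem_univ, if_true] at hd
  linear_combination (1 / 2 : ℂ) * hd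

theorem vanish (hj : 1 ≤ j) : ∀ (L : ℕ) (f : CP (amb j)), f ∈ V (amb j) L →
    (∀ ζ ∈ Om j, eval ζ f = 0) → f = 0 := by
  intro L
  induction L with
  | zero =>
    intro f hf h0
    obtain ⟨c, rfl⟩ : ∃ c, f = C c :=
      ⟨coeff 0 f, totalDegree_eq_zero_iff_eq_C.mp (Nat.le_zero.mp (mem_V.mp hf).1.totalDegree_le)⟩
    simpa using h0 _ vz_mem
  | succ L ih =>
    intro f hf h0
    obtain ⟨hhom, hlap⟩ := mem_V.mp hf
    have hd1 : ∀ c, (pderiv c f).IsHomogeneous L := fun c => by simpa using hhom.pderiv (i := c)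
    have hgrad : ∀ ζ ∈ Om j, ∀ b, eval ζ (pderiv b f) = 0 := by
      intro ζ hζ b
      obtain ⟨c, hc⟩ : ∃ c, ζ c ≠ 0 := Function.ne_iff.mp (Om_ne hζ)
      set Gf : Fin (amb j) → CP (amb j) := fun a => X a * pderiv b f - X b * pderiv a f with hG
      have hGh : ∀ a, (Gf a).IsHomogeneous (L + 1) := fun a => by
        rw [add_comm]
        exact ((isHomogeneous_X ℂ a).mul (hd1 b)).sub ((isHomogeneous_X ℂ b).mul (hd1 a))
      have hG0 : ∀ a, ∀ η ∈ Om j, eval η (Gf a) = 0 := fun a η hη => by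
        simpa [hG] using tangent L.succ_ne_zero hhom h0 a b hη
      have hsum : ∑ a, (ζ a * eval ζ (pderiv c (Gf a)) - ζ c * eval ζ (pderiv a (Gf a))) = 0 :=
        Finset.sum_eq_zero fun a _ => tangent L.succ_ne_zero (hGh a) (hG0 a) a c hζ
      have E1 : ∑ a, ζ a * eval ζ (pderiv a f) = 0 := by
        have := congrArg (eval ζ) hhom.sum_X_mul_pderiv
        simpa [map_sum, h0 ζ hζ] using this
      have E2 : ∑ a, ζ a * eval ζ (pderiv a (pderiv c f)) = L * eval ζ (pderiv c f) := by
        have := congrArg (eval ζ) (hd1 c).sum_X_mul_pderiv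
        simpa [map_sum] using this
      have E2b : ∑ a, ζ a * eval ζ (pderiv a (pderiv b f)) = L * eval ζ (pderiv b f) := by
        have := congrArg (eval ζ) (hd1 b).sum_X_mul_pderiv
        simpa [map_sum] using this
      have E3 : ∑ a, eval ζ (pderiv a (pderiv a f)) = 0 := by
        rw [← map_sum, ← lapC_apply, hlap, map_zero]
      have E4 : ∑ a, ζ a * ζ a = 0 := Om_iso hζ
      have E5 := tangent L.succ_ne_zero hhom h0 c b hζ
      have key : ∀ a, ζ a * eval ζ (pderiv c (Gf a)) - ζ c * eval ζ (pderiv a (Gf a)) =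
          (if a = c then ζ c * eval ζ (pderiv b f) else 0) +
            ζ a * ζ a * eval ζ (pderiv c (pderiv b f)) -
            (if b = c then ζ a * eval ζ (pderiv a f) else 0) -
            ζ b * (ζ a * eval ζ (pderiv a (pderiv c f))) -
            ζ c * eval ζ (pderiv b f) -
            ζ c * (ζ a * eval ζ (pderiv a (pderiv b f))) +
            (if a = b then ζ c * eval ζ (pderiv b f) else 0) +
            ζ c * ζ b * eval ζ (pderiv a (pderiv a f)) := by
        intro a
        have dX : ∀ c a : Fin (amb j), eval ζ (pderiv c (X a : CP (amb j))) =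
            if a = c then (1 : ℂ) else 0 := by
          intro c a
          rcases eq_or_ne a c with rfl | h <;> simp [*]
        have d1 : (if a = c then (1 : ℂ) else 0) * ζ a = (if a = c then (1 : ℂ) else 0) * ζ c := by
          split_ifs with h
          · rw [h]
          · simp
        have d2 : (if b = a then (1 : ℂ) else 0) * eval ζ (pderiv a f) =
            (if a = b then (1 : ℂ) else 0) * eval ζ (pderiv b f) := by
          rcases eq_or_ne a b with rfl | h
          · rfl
          · simp [h, Ne.symm h]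
        simp only [hG, map_sub, Derivation.leibniz, smul_eq_mul, map_add, map_mul, eval_X, dX,
          pderiv_comm_C c a f, if_pos]
        have r : ∀ (P : Prop) [Decidable P] (x : ℂ),
            (if P then x else 0) = (if P then (1 : ℂ) else 0) * x := by
          intros; simp
        rw [r (a = c) (ζ c * eval ζ (pderiv b f)), r (b = c) (ζ a * eval ζ (pderiv a f)),
          r (a = b) (ζ c * eval ζ (pderiv b f))]
        linear_combination (eval ζ (pderiv b f)) * d1 + ζ c * d2
      have hexp : ζ c * eval ζ (pderiv b f) * (2 - amb j - L : ℂ) -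
          (L : ℂ) * (ζ b * eval ζ (pderiv c f)) = 0 := by
        rw [Finset.sum_congr rfl fun a _ => key a] at hsum
        simp only [Finset.sum_add_distrib, Finset.sum_sub_distrib, ← Finset.sum_mul,
          ← Finset.mul_sum, E2, E2b, E3, E4, Finset.sum_ite_eq', Finset.mem_univ, if_true,
          Finset.sum_const, Finset.card_univ, Fintype.card_fin, nsmul_eq_mul] at hsum
        by_cases hbc : b = c
        · simp only [hbc, if_true, E1] at hsum ⊢
          linear_combination hsum
        · simp only [hbc, if_false, Finset.sum_const_zero] at hsum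
          linear_combination hsum
      have h2 : (ζ c * eval ζ (pderiv b f)) * (2 - amb j - 2 * L : ℂ) = 0 := by
        linear_combination hexp - (L : ℂ) * E5
      have h3 : (2 - amb j - 2 * L : ℂ) ≠ 0 := by
        intro h
        have : (2 : ℤ) - (amb j : ℤ) - 2 * L = 0 := by exact_mod_cast h
        simp only [amb] at this; omega
      exact (mul_eq_zero.mp ((mul_eq_zero.mp h2).resolve_right h3)).resolve_left hc
    have hz : ∀ b, pderiv b f = 0 := fun b =>
      ih _ (mem_V.mpr ⟨hd1 b, by rw [lapC_pderiv, hlap, map_zero]⟩) fun ζ hζ => hgrad ζ hζ b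
    have h := hhom.sum_X_mul_pderiv
    simp only [hz, mul_zero, Finset.sum_const_zero] at h
    exact (smul_eq_zero.mp h.symm).resolve_left L.succ_ne_zero

end Vale.Agent.P225.LieFull
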