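import Vale.Agent.P225.Harm

/-! P225 C2: complexified operators, the bracket filtration `G` and its symmetries. -/

open scoped BigOperators Matrix
open MvPolynomial

namespace Vale.Agent.P225.LieFull

variable {n : ℕ}

abbrev CP (n : ℕ) := MvPolynomial (Fin n) ℂ

abbrev CE (n : ℕ) := Module.End ℂ (CP n)

/-- The linear form with coefficients `a`. -/
noncomputable def lin : (Fin n → ℂ) →ₗ[ℂ] CP n where
  toFun a := ∑ i, a i • X i
  map_add' a b := by simp [add_smul, Finset.sum_add_distrib]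
  map_smul' c a := by simp [smul_smul, Finset.smul_sum]

theorem lin_apply (a : Fin n → ℂ) : lin a = ∑ i, a i • (X i : CP n) := rfl

theorem eval_lin (x a : Fin n → ℂ) : eval x (lin a) = a ⬝ᵥ x := by
  simp [lin_apply, map_sum, dotProduct]

theorem lin_single (i : Fin n) : lin (Pi.single i (1 : ℂ)) = X i := by
  simp [lin_apply, Pi.single_apply, ite_smul]

/-- The derivation `x ↦ B x`. -/
noncomputable def der (B : Matrix (Fin n) (Fin n) ℂ) : Derivation ℂ (CP n) (CP n) :=
  mkDerivation ℂ fun i => lin (B i)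

theorem der_X (B : Matrix (Fin n) (Fin n) ℂ) (i : Fin n) : der B (X i) = lin (B i) :=
  mkDerivation_X ℂ _ i

theorem der_lin (B : Matrix (Fin n) (Fin n) ℂ) (a : Fin n → ℂ) :
    der B (lin a) = lin (a ᵥ* B) := by
  have : a ᵥ* B = ∑ i, a i • B i := by
    ext k; simp [Matrix.vecMul, dotProduct, Finset.sum_apply]
  rw [this, map_sum, lin_apply, map_sum]
  exact Finset.sum_congr rfl fun i _ => by rw [Derivation.map_smul, der_X, map_smul]

/-- The derivation as an operator, linearly in `B`. -/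
noncomputable def Dop : Matrix (Fin n) (Fin n) ℂ →ₗ[ℂ] CE n where
  toFun B := (der B).toLinearMap
  map_add' B B' := by
    have : der (B + B') = der B + der B' := derivation_ext fun i => by
      rw [Derivation.add_apply, der_X, der_X, der_X, ← map_add]; rfl
    simp [this]
  map_smul' c B := by
    have : der (c • B) = c • der B := derivation_ext fun i => by
      rw [Derivation.smul_apply, der_X, der_X, ← map_smul]; rfl
    simp [this]

theorem Dop_apply (B : Matrix (Fin n) (Fin n) ℂ) (f : CP n) : Dop B f = der B f := rfl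

/-- Commutator. -/
def cm {A : Type*} [Ring A] (a b : A) : A := a * b - b * a

theorem cm_Dop (B B' : Matrix (Fin n) (Fin n) ℂ) :
    cm (Dop B) (Dop B') = Dop (B' * B - B * B') := by
  have key : ⁅der B, der B'⁆ = der (B' * B - B * B') := derivation_ext fun i => by
    rw [Derivation.commutator_apply, der_X, der_X, der_X, der_lin, der_lin, ← map_sub]
    congr 1
  refine LinearMap.ext fun f => ?_
  simp only [cm, LinearMap.sub_apply, Module.End.mul_apply, Dop_apply]
  rw [← Derivation.commutator_apply, key]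

theorem ext_lin_end {X Y : CE n} (h : ∀ f, X f = Y f) : X = Y := LinearMap.ext h

/-! ### real operators -/

noncomputable abbrev iota : MvPolynomial (Fin n) ℝ →+* CP n :=
  MvPolynomial.map (algebraMap ℝ ℂ)

noncomputable abbrev cMat (J : Matrix (Fin n) (Fin n) ℝ) : Matrix (Fin n) (Fin n) ℂ :=
  J.map (algebraMap ℝ ℂ)

/-- Complexified `Q_J`. -/
noncomputable def Qc (J : Matrix (Fin n) (Fin n) ℝ) : CE n := -(Dop (cMat J) * Dop (cMat J))

theorem der_sum_apply {ι : Type*} (s : Finset ι) (D : ι → Derivation ℂ (CP n) (CP n)) (g : CP n) :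
    (∑ i ∈ s, D i) g = ∑ i ∈ s, D i g := by
  classical
  induction s using Finset.induction with
  | empty => simp
  | insert a t ha ih => rw [Finset.sum_insert ha, Finset.sum_insert ha, Derivation.add_apply, ih]

theorem Dop_iota (J : Matrix (Fin n) (Fin n) ℝ) (f : MvPolynomial (Fin n) ℝ) :
    Dop (cMat J) (iota f) = iota (derJ J f) := by
  have hsum : ∀ g : CP n, Dop (cMat J) g = ∑ i, lin (cMat J i) * pderiv i g := by
    intro g
    have : der (cMat J) = ∑ i, lin (cMat J i) • pderiv i := derivation_ext fun k => by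
      simp [der_X, der_sum_apply, pderiv_X, Pi.single_apply]
    rw [Dop_apply, this, der_sum_apply]
    exact Finset.sum_congr rfl fun i _ => rfl
  rw [hsum, derJ_apply, map_sum]
  refine Finset.sum_congr rfl fun i _ => ?_
  rw [map_sum, lin_apply, Finset.sum_mul]
  refine Finset.sum_congr rfl fun k _ => ?_
  rw [MvPolynomial.smul_eq_C_mul, MvPolynomial.smul_eq_C_mul, map_mul, map_mul, MvPolynomial.map_C,
    MvPolynomial.map_X, pderiv_map, mul_assoc]
  rfl

theorem Qc_iota (J : Matrix (Fin n) (Fin n) ℝ) (f : MvPolynomial (Fin n) ℝ) :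
    Qc J (iota f) = iota (qOp J f) := by
  simp [Qc, qOp, Dop_iota]

/-- `G k`: spanned by brackets of `k+1` generators. -/
noncomputable def G : ℕ → Submodule ℂ (CE n)
  | 0 => Submodule.span ℂ {Y | ∃ J : Matrix (Fin n) (Fin n) ℝ, IsCS J ∧ Y = Qc J}
  | k + 1 => Submodule.span ℂ
      {Y | ∃ J : Matrix (Fin n) (Fin n) ℝ, IsCS J ∧ ∃ g ∈ G k, Y = cm (Qc J) g}

theorem Qc_mem_G {J : Matrix (Fin n) (Fin n) ℝ} (hJ : IsCS J) : Qc J ∈ G 0 :=
  Submodule.subset_span ⟨J, hJ, rfl⟩

theorem cm_Qc_mem {J : Matrix (Fin n) (Fin n) ℝ} (hJ : IsCS J) {k : ℕ} {g : CE n}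
    (hg : g ∈ G k) : cm (Qc J) g ∈ G (k + 1) :=
  Submodule.subset_span ⟨J, hJ, g, hg, rfl⟩

section cm

variable {A : Type*} [Ring A]

theorem cm_zero_left (b : A) : cm 0 b = 0 := by simp [cm]

theorem cm_zero_right (b : A) : cm b 0 = 0 := by simp [cm]

theorem cm_add_left (a a' b : A) : cm (a + a') b = cm a b + cm a' b := by
  simp [cm]; noncomm_ring

theorem cm_add_right (a b b' : A) : cm a (b + b') = cm a b + cm a b' := by
  simp [cm]; noncomm_ring

theorem cm_jacobi (q a b : A) : cm (cm q a) b = cm q (cm a b) - cm a (cm q b) := by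
  simp [cm]; noncomm_ring

theorem cm_leib (d q a : A) : cm d (cm q a) = cm (cm d q) a + cm q (cm d a) := by
  simp [cm]; noncomm_ring

theorem cm_smul_left [Algebra ℂ A] (c : ℂ) (a b : A) : cm (c • a) b = c • cm a b := by
  simp [cm, smul_sub]

theorem cm_smul_right [Algebra ℂ A] (c : ℂ) (a b : A) : cm a (c • b) = c • cm a b := by
  simp [cm, smul_sub]

theorem cm_neg_sq (x y : A) : cm x (-(y * y)) = -(y * cm x y + cm x y * y) := by
  simp only [cm, mul_sub, sub_mul, mul_neg, neg_mul, mul_assoc]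
  abel

end cm

theorem cm_mem_G : ∀ (a b : ℕ) {X Y : CE n}, X ∈ G a → Y ∈ G b → cm X Y ∈ G (a + b + 1) := by
  intro a
  induction a with
  | zero =>
    intro b X Y hX hY
    rw [Nat.zero_add]
    simp only [G] at hX
    induction hX using Submodule.span_induction with
    | mem x hx => obtain ⟨J, hJ, rfl⟩ := hx; exact cm_Qc_mem hJ hY
    | zero => rw [cm_zero_left]; exact Submodule.zero_mem _
    | add p q _ _ hp hq => rw [cm_add_left]; exact Submodule.add_mem _ hp hq
    | smul c p _ hp => rw [cm_smul_left]; exact Submodule.smul_mem _ c hp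
  | succ a ih =>
    intro b X Y hX hY
    simp only [G] at hX
    induction hX using Submodule.span_induction with
    | mem x hx =>
      obtain ⟨J, hJ, g, hg, rfl⟩ := hx
      rw [cm_jacobi]
      refine Submodule.sub_mem _ ?_ ?_
      · have := cm_Qc_mem hJ (ih b hg hY)
        rwa [show a + 1 + b + 1 = a + b + 1 + 1 by omega]
      · have := ih (b + 1) hg (cm_Qc_mem hJ hY)
        rwa [show a + 1 + b + 1 = a + (b + 1) + 1 by omega]
    | zero => rw [cm_zero_left]; exact Submodule.zero_mem _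
    | add p q _ _ hp hq => rw [cm_add_left]; exact Submodule.add_mem _ hp hq
    | smul c p _ hp => rw [cm_smul_left]; exact Submodule.smul_mem _ c hp

/-! ### orthogonal symmetries -/

abbrev Orth (R : Matrix (Fin n) (Fin n) ℝ) : Prop := Rᵀ * R = 1

theorem Orth.mul_transpose {R : Matrix (Fin n) (Fin n) ℝ} (h : Orth R) : R * Rᵀ = 1 :=
  mul_eq_one_comm.mp h

theorem Orth.transpose {R : Matrix (Fin n) (Fin n) ℝ} (h : Orth R) : Orth Rᵀ := by
  rw [Orth, Matrix.transpose_transpose]; exact h.mul_transpose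

theorem isCS_conj {J R : Matrix (Fin n) (Fin n) ℝ} (hJ : IsCS J) (hR : Orth R) :
    IsCS (R * J * Rᵀ) := by
  refine ⟨?_, ?_⟩
  · simp [Matrix.transpose_mul, hJ.1, Matrix.mul_assoc]
  · calc R * J * Rᵀ * (R * J * Rᵀ) = R * J * (Rᵀ * R) * J * Rᵀ := by simp [Matrix.mul_assoc]
      _ = -1 := by
        rw [show Rᵀ * R = 1 from hR, Matrix.mul_one, Matrix.mul_assoc R J J, hJ.2]
        simp [hR.mul_transpose]

/-- Substitution `f ↦ f(Rᵀ x)`. -/
noncomputable def subst (R : Matrix (Fin n) (Fin n) ℂ) : CP n →ₐ[ℂ] CP n :=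
  aeval fun i => lin fun k => R k i

theorem subst_lin (R : Matrix (Fin n) (Fin n) ℂ) (a : Fin n → ℂ) :
    subst R (lin a) = lin (R *ᵥ a) := by
  have : R *ᵥ a = ∑ i, a i • (fun k => R k i) := by
    ext k; simp [Matrix.mulVec, dotProduct, Finset.sum_apply, mul_comm]
  rw [this, map_sum, lin_apply, map_sum]
  exact Finset.sum_congr rfl fun i _ => by rw [map_smul, map_smul, subst, aeval_X]

theorem subst_X (R : Matrix (Fin n) (Fin n) ℂ) (i : Fin n) :
    subst R (X i) = lin fun k => R k i := aeval_X _ i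

theorem subst_mul (R R' : Matrix (Fin n) (Fin n) ℂ) (f : CP n) :
    subst R (subst R' f) = subst (R * R') f := by
  rw [← AlgHom.comp_apply]
  congr 1
  ext i : 1
  rw [AlgHom.comp_apply, subst_X, subst_lin, subst_X]
  rfl

theorem subst_one (f : CP n) : subst (1 : Matrix (Fin n) (Fin n) ℂ) f = f := by
  have : subst (1 : Matrix (Fin n) (Fin n) ℂ) = AlgHom.id ℂ (CP n) := by
    ext i : 1
    rw [subst_X, AlgHom.id_apply, ← lin_single i]
    congr 1
    ext k; simp [Matrix.one_apply, Pi.single_apply]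
  simp [this]

noncomputable def Sop (R : Matrix (Fin n) (Fin n) ℝ) : CE n := (subst (cMat R)).toLinearMap

theorem Sop_apply (R : Matrix (Fin n) (Fin n) ℝ) (f : CP n) : Sop R f = subst (cMat R) f := rfl

theorem Sop_mul (R R' : Matrix (Fin n) (Fin n) ℝ) : Sop R * Sop R' = Sop (R * R') := by
  refine LinearMap.ext fun f => ?_
  simp only [Module.End.mul_apply, Sop_apply, subst_mul]
  congr 2
  exact (Matrix.map_mul (f := algebraMap ℝ ℂ)).symm

theorem Sop_one : Sop (1 : Matrix (Fin n) (Fin n) ℝ) = 1 := by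
  refine LinearMap.ext fun f => ?_
  rw [Sop_apply, show cMat (1 : Matrix (Fin n) (Fin n) ℝ) = 1 from Matrix.map_one _ (map_zero _)
    (map_one _), subst_one, Module.End.one_apply]

theorem subst_der {R B : Matrix (Fin n) (Fin n) ℂ} (hR : Rᵀ * R = 1) (f : CP n) :
    subst R (der B f) = der (R * B * Rᵀ) (subst R f) := by
  induction f using MvPolynomial.induction_on with
  | C a => simp [← MvPolynomial.algebraMap_eq]
  | add p q hp hq => simp [hp, hq]
  | mul_X p i hp =>
    simp only [Derivation.leibniz, smul_eq_mul, map_add, map_mul, hp, der_X, subst_X, subst_lin,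
      der_lin]
    congr 3
    calc R *ᵥ B i = (B * Rᵀ) i := by
          ext k; simp [Matrix.mulVec, dotProduct, Matrix.mul_apply, mul_comm]
      _ = (Rᵀ * (R * B * Rᵀ)) i := by
          rw [Matrix.mul_assoc R B Rᵀ, ← Matrix.mul_assoc Rᵀ R, hR, Matrix.one_mul]
      _ = (fun k => R k i) ᵥ* (R * B * Rᵀ) := rfl

/-- Conjugation by a substitution. -/
noncomputable def cj (R : Matrix (Fin n) (Fin n) ℝ) (Y : CE n) : CE n := Sop R * Y * Sop Rᵀ

theorem cj_cm {R : Matrix (Fin n) (Fin n) ℝ} (hR : Orth R) (X Y : CE n) :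
    cj R (cm X Y) = cm (cj R X) (cj R Y) := by
  have h : Sop Rᵀ * Sop R = 1 := by rw [Sop_mul, show Rᵀ * R = 1 from hR, Sop_one]
  simp only [cj, cm, mul_sub, sub_mul, mul_assoc]
  rw [← mul_assoc (Sop Rᵀ) (Sop R), h, one_mul, ← mul_assoc (Sop Rᵀ) (Sop R), h, one_mul]

theorem cj_Qc {R : Matrix (Fin n) (Fin n) ℝ} (hR : Orth R) (J : Matrix (Fin n) (Fin n) ℝ) :
    cj R (Qc J) = Qc (R * J * Rᵀ) := by
  have h : Sop R * Sop Rᵀ = 1 := by rw [Sop_mul, hR.mul_transpose, Sop_one]
  have hR' : (cMat R)ᵀ * cMat R = 1 := by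
    show (R.map _)ᵀ * R.map _ = 1
    rw [← Matrix.transpose_map, ← Matrix.map_mul, show Rᵀ * R = 1 from hR,
      Matrix.map_one _ (map_zero _) (map_one _)]
  have hD : ∀ f, Sop R (Dop (cMat J) f) = Dop (cMat (R * J * Rᵀ)) (Sop R f) := by
    intro f
    simp only [Sop_apply, Dop_apply, subst_der hR']
    rw [show cMat (R * J * Rᵀ) = cMat R * cMat J * (cMat R)ᵀ by
      rw [cMat, Matrix.map_mul, Matrix.map_mul, Matrix.transpose_map]]
  refine LinearMap.ext fun f => ?_
  have h' : ∀ g, Sop R (Sop Rᵀ g) = g := fun g => by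
    rw [← Module.End.mul_apply, h, Module.End.one_apply]
  simp [cj, Qc, hD, h']

theorem cj_mem_G {R : Matrix (Fin n) (Fin n) ℝ} (hR : Orth R) :
    ∀ (k : ℕ) {Y : CE n}, Y ∈ G k → cj R Y ∈ G k := by
  intro k
  induction k with
  | zero =>
    intro Y hY
    simp only [G] at hY
    induction hY using Submodule.span_induction with
    | mem x hx => obtain ⟨J, hJ, rfl⟩ := hx; rw [cj_Qc hR]; exact Qc_mem_G (isCS_conj hJ hR)
    | zero => simp [cj]
    | add p q _ _ hp hq => rw [show cj R (p + q) = cj R p + cj R q by simp [cj, mul_add, add_mul]]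
                           exact Submodule.add_mem _ hp hq
    | smul c p _ hp => rw [show cj R (c • p) = c • cj R p by simp [cj]]
                       exact Submodule.smul_mem _ c hp
  | succ k ih =>
    intro Y hY
    simp only [G] at hY
    induction hY using Submodule.span_induction with
    | mem x hx =>
      obtain ⟨J, hJ, g, hg, rfl⟩ := hx
      rw [cj_cm hR, cj_Qc hR]
      exact cm_Qc_mem (isCS_conj hJ hR) (ih hg)
    | zero => simp [cj]
    | add p q _ _ hp hq => rw [show cj R (p + q) = cj R p + cj R q by simp [cj, mul_add, add_mul]]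
                           exact Submodule.add_mem _ hp hq
    | smul c p _ hp => rw [show cj R (c • p) = c • cj R p by simp [cj]]
                       exact Submodule.smul_mem _ c hp

/-! ### reflections and infinitesimal invariance -/

/-- Scaled Householder reflection. -/
def hh (y : Fin n → ℝ) : Matrix (Fin n) (Fin n) ℝ :=
  (y ⬝ᵥ y) • (1 : Matrix (Fin n) (Fin n) ℝ) - (2 : ℝ) • Matrix.vecMulVec y y

theorem hh_transpose (y : Fin n → ℝ) : (hh y)ᵀ = hh y := by
  simp [hh, Matrix.transpose_vecMulVec]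

theorem hh_sq (y : Fin n → ℝ) : hh y * hh y = (y ⬝ᵥ y) ^ 2 • 1 := by
  simp only [hh, sub_mul, mul_sub, Matrix.smul_mul, Matrix.mul_smul, Matrix.one_mul,
    Matrix.mul_one, Matrix.vecMulVec_mul_vecMulVec, Matrix.vecMulVec_smul]
  module

theorem orth_hh {y : Fin n → ℝ} (hy : y ⬝ᵥ y ≠ 0) : Orth ((y ⬝ᵥ y)⁻¹ • hh y) := by
  rw [Orth, Matrix.transpose_smul, hh_transpose, Matrix.smul_mul, Matrix.mul_smul, hh_sq,
    smul_smul, smul_smul, ← one_smul ℝ (1 : Matrix (Fin n) (Fin n) ℝ), smul_smul]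
  congr 1
  field_simp

theorem Qc_smul (c : ℝ) (J : Matrix (Fin n) (Fin n) ℝ) :
    Qc (c • J) = ((c : ℂ) ^ 2) • Qc J := by
  have : cMat (c • J) = (c : ℂ) • cMat J := by ext i k; simp [cMat]
  rw [Qc, Qc, this, map_smul, smul_mul_assoc, mul_smul_comm, smul_smul, smul_neg, pow_two]

theorem Qc_hh_mem {J : Matrix (Fin n) (Fin n) ℝ} (hJ : IsCS J) (y : Fin n → ℝ) :
    Qc (hh y * J * hh y) ∈ G 0 := by
  rcases eq_or_ne (y ⬝ᵥ y) 0 with h | h
  · have hy : y = 0 := dotProduct_self_eq_zero.mp h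
    simp [hy, hh, Qc]
  · have e : hh y * J * hh y = (y ⬝ᵥ y) ^ 2 •
        (((y ⬝ᵥ y)⁻¹ • hh y) * J * ((y ⬝ᵥ y)⁻¹ • hh y)ᵀ) := by
      simp [hh_transpose, Matrix.smul_mul, Matrix.mul_smul, smul_smul]
      rw [show (y ⬝ᵥ y) ^ 2 * ((y ⬝ᵥ y)⁻¹ * (y ⬝ᵥ y)⁻¹) = 1 by field_simp, one_smul]
    rw [e, Qc_smul]
    exact Submodule.smul_mem _ _ (Qc_mem_G (isCS_conj hJ (orth_hh h)))

theorem coeff_one_mem {E : Type*} [AddCommGroup E] [Module ℂ E] (P : Submodule ℂ E) (m : ℕ)
    (c : ℕ → E) (h : ∀ s : ℝ, ∑ k ∈ Finset.range (m + 2), ((s : ℂ) ^ k) • c k ∈ P) : c 1 ∈ P := by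
  classical
  by_contra hnot
  obtain ⟨f, hfX, hfk⟩ := Submodule.exists_dual_map_eq_bot_of_notMem hnot inferInstance
  have hf : ∀ Y ∈ P, f Y = 0 := by
    intro Y hY
    have : f Y ∈ P.map f := Submodule.mem_map_of_mem hY
    simpa [hfk] using this
  set p : Polynomial ℂ := ∑ k ∈ Finset.range (m + 2), Polynomial.C (f (c k)) * Polynomial.X ^ k
  have hp : p = 0 := by
    refine Polynomial.eq_zero_of_infinite_isRoot _ (Set.Infinite.mono ?_
      (Set.infinite_range_of_injective Complex.ofReal_injective))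
    rintro _ ⟨s, rfl⟩
    have := hf _ (h s)
    simp only [map_sum, map_smul, smul_eq_mul] at this
    simp only [Set.mem_ofPred_eq, Polynomial.IsRoot, p, Polynomial.eval_finsetSum,
      Polynomial.eval_mul, Polynomial.eval_C, Polynomial.eval_pow, Polynomial.eval_X]
    rw [← this]
    exact Finset.sum_congr rfl fun k _ => mul_comm _ _
  have : p.coeff 1 = f (c 1) := by
    simp [p, Polynomial.finsetSum_coeff, Polynomial.coeff_C_mul, Polynomial.coeff_X_pow]
  apply hfX
  rw [← this, hp, Polynomial.coeff_zero]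

/-- Linear coefficient along a quadratic curve of matrices. -/
theorem curve_coeff_mem (K0 K1 K2 J' : Matrix (Fin n) (Fin n) ℝ)
    (h : ∀ s : ℝ, Qc ((K0 + s • K1 + s ^ 2 • K2) * J' * (K0 + s • K1 + s ^ 2 • K2)) ∈ G 0) :
    Dop (cMat (K0 * J' * K0)) * Dop (cMat (K1 * J' * K0 + K0 * J' * K1)) +
      Dop (cMat (K1 * J' * K0 + K0 * J' * K1)) * Dop (cMat (K0 * J' * K0)) ∈ G 0 := by
  set a := Dop (cMat (K0 * J' * K0))
  set b := Dop (cMat (K1 * J' * K0 + K0 * J' * K1))
  set c := Dop (cMat (K2 * J' * K0 + K1 * J' * K1 + K0 * J' * K2))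
  set d := Dop (cMat (K2 * J' * K1 + K1 * J' * K2))
  set e := Dop (cMat (K2 * J' * K2))
  let cc : ℕ → CE n := fun k =>
    if k = 0 then a * a else if k = 1 then a * b + b * a
    else if k = 2 then a * c + b * b + c * a
    else if k = 3 then a * d + b * c + c * b + d * a
    else if k = 4 then a * e + b * d + c * c + d * b + e * a
    else if k = 5 then b * e + c * d + d * c + e * b
    else if k = 6 then c * e + d * d + e * c
    else if k = 7 then d * e + e * d
    else e * e
  have key := coeff_one_mem (G 0) 7 cc fun s => by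
    have hD : Dop (cMat ((K0 + s • K1 + s ^ 2 • K2) * J' * (K0 + s • K1 + s ^ 2 • K2))) =
        a + (s : ℂ) • b + (s : ℂ) ^ 2 • c + (s : ℂ) ^ 3 • d + (s : ℂ) ^ 4 • e := by
      simp only [a, b, c, d, e, ← map_smul, ← map_add]
      congr 1
      ext i k
      simp [cMat, add_mul, mul_add, Matrix.smul_mul, Matrix.mul_smul]
      ring
    have := Submodule.neg_mem _ (h s)
    rw [Qc, neg_neg, hD] at this
    convert this using 1
    simp only [Finset.sum_range_succ, Finset.sum_range_zero, cc]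
    norm_num
    simp only [add_mul, mul_add, smul_mul_assoc, mul_smul_comm, smul_smul, smul_add]
    module
  simpa [cc] using key

/-- Elementary skew matrix. -/
def skewE (a b : Fin n) : Matrix (Fin n) (Fin n) ℝ :=
  Matrix.single a b (1 : ℝ) - Matrix.single b a 1

/-- The three coefficient matrices of the reflection curve. -/
def refl (a : Fin n) : Matrix (Fin n) (Fin n) ℝ := 1 - (2 : ℝ) • Matrix.single a a (1 : ℝ)

def refl1 (a b : Fin n) : Matrix (Fin n) (Fin n) ℝ :=
  -(2 : ℝ) • (Matrix.single a b (1 : ℝ) + Matrix.single b a 1)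

theorem hh_single (a : Fin n) : hh (Pi.single a 1) = refl a := by
  simp [hh, refl, ← Matrix.single_eq_single_vecMulVec_single]

theorem refl_sq (a : Fin n) : refl a * refl a = 1 := by
  rw [← hh_single, hh_sq]; simp

theorem hh_curve {a b : Fin n} (hab : a ≠ b) (s : ℝ) :
    hh (Pi.single a 1 + s • Pi.single b 1) = refl a + s • refl1 a b + s ^ 2 • refl b := by
  have hd : (Pi.single a (1 : ℝ) + s • Pi.single b (1 : ℝ) : Fin n → ℝ) ⬝ᵥ
      (Pi.single a 1 + s • Pi.single b 1) = 1 + s ^ 2 := by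
    simp [dotProduct_add, hab, Ne.symm hab, pow_two]
  simp only [hh, hd, refl, refl1, Matrix.add_vecMulVec, Matrix.vecMulVec_add,
    Matrix.smul_vecMulVec, Matrix.vecMulVec_smul, ← Matrix.single_eq_single_vecMulVec_single]
  module

theorem refl1_mul {a b : Fin n} (hab : a ≠ b) :
    refl1 a b * refl a = -(2 : ℝ) • skewE a b := by
  have hab' := Ne.symm hab
  rw [refl, refl1, skewE]
  simp only [mul_sub, Matrix.mul_one, Matrix.smul_mul, Matrix.mul_smul, add_mul,
    Matrix.single_mul_single_same, ne_eq, hab', not_false_eq_true,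
    Matrix.single_mul_single_of_ne, mul_one]
  module

theorem mul_refl1 {a b : Fin n} (hab : a ≠ b) :
    refl a * refl1 a b = (2 : ℝ) • skewE a b := by
  rw [refl, refl1, skewE]
  simp only [sub_mul, Matrix.one_mul, Matrix.smul_mul, Matrix.mul_smul, mul_add,
    Matrix.single_mul_single_same, ne_eq, hab, not_false_eq_true,
    Matrix.single_mul_single_of_ne, mul_one]
  module

theorem cm_skewE_mem {J : Matrix (Fin n) (Fin n) ℝ} (hJ : IsCS J) (a b : Fin n) :
    cm (Dop (cMat (skewE a b))) (Qc J) ∈ G 0 := by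
  rcases eq_or_ne a b with rfl | hab
  · rw [show skewE a a = 0 by simp [skewE], show cMat (0 : Matrix (Fin n) (Fin n) ℝ) = 0 by
      simp [cMat], map_zero, cm_zero_left]
    exact Submodule.zero_mem _
  have e1 := refl1_mul hab
  have e2 := mul_refl1 hab
  have hKs := fun s => hh_curve hab s
  have hK00 := refl_sq a
  have hT : (refl a)ᵀ = refl a := by rw [← hh_single, hh_transpose]
  have hO : Orth (refl a) := by rw [Orth, hT, hK00]
  generalize hK0 : refl a = K0 at *
  generalize hK1 : refl1 a b = K1 at *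
  generalize hK2 : refl b = K2 at *
  have key := curve_coeff_mem K0 K1 K2 (K0 * J * K0ᵀ) fun s => by
    rw [← hKs s]; exact Qc_hh_mem (isCS_conj hJ hO) _
  have h0 : K0 * (K0 * J * K0ᵀ) * K0 = J := by
    calc K0 * (K0 * J * K0ᵀ) * K0 = (K0 * K0) * J * (K0 * K0) := by rw [hT]; noncomm_ring
      _ = J := by rw [hK00, Matrix.one_mul, Matrix.mul_one]
  have h1 : K1 * (K0 * J * K0ᵀ) * K0 + K0 * (K0 * J * K0ᵀ) * K1 =
      -(2 : ℝ) • (skewE a b * J - J * skewE a b) := by
    calc _ = K1 * K0 * J * (K0 * K0) + (K0 * K0) * J * (K0 * K1) := by rw [hT]; noncomm_ring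
      _ = _ := by
        rw [hK00, e1, e2, Matrix.one_mul, Matrix.mul_one, Matrix.smul_mul, Matrix.mul_smul]
        module
  have hc : cMat (-(2 : ℝ) • (skewE a b * J - J * skewE a b)) =
      (2 : ℂ) • (cMat J * cMat (skewE a b) - cMat (skewE a b) * cMat J) := by
    ext i k
    simp [cMat, Matrix.mul_apply]
    ring
  rw [h0, h1, hc, map_smul, ← cm_Dop] at key
  have alg : ∀ x y : CE n, cm x (-(y * y)) =
      -((1 / 2 : ℂ) • (y * ((2 : ℂ) • cm x y) + ((2 : ℂ) • cm x y) * y)) := by
    intro x y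
    rw [mul_smul_comm, smul_mul_assoc, ← smul_add, smul_smul,
      show (1 / 2 : ℂ) * 2 = 1 by norm_num, one_smul]
    exact cm_neg_sq x y
  rw [show cm (Dop (cMat (skewE a b))) (Qc J) =
    cm (Dop (cMat (skewE a b))) (-(Dop (cMat J) * Dop (cMat J))) from rfl, alg]
  exact Submodule.neg_mem _ (Submodule.smul_mem _ _ key)

theorem skew_decomp {B : Matrix (Fin n) (Fin n) ℂ} (hB : Bᵀ = -B) :
    B = ∑ a, ∑ b, (B a b / 2) • cMat (skewE a b) := by
  ext i k
  have := congrFun (congrFun hB i) k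
  simp only [Matrix.transpose_apply, Matrix.neg_apply] at this
  simp only [Matrix.sum_apply, Matrix.smul_apply, cMat, Matrix.map_apply, skewE, Matrix.sub_apply,
    Matrix.single_apply, map_sub, smul_eq_mul, mul_sub, Finset.sum_sub_distrib,
    apply_ite (algebraMap ℝ ℂ), map_one, map_zero, mul_ite, mul_one, mul_zero, ite_and,
    Finset.sum_ite_eq', Finset.mem_univ, if_true]
  simp [this]
  ring

theorem cm_sum_left {A ι : Type*} [Ring A] (s : Finset ι) (f : ι → A) (b : A) :
    cm (∑ i ∈ s, f i) b = ∑ i ∈ s, cm (f i) b := by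
  simp [cm, Finset.sum_mul, Finset.mul_sum, Finset.sum_sub_distrib]

theorem cm_skew_mem {B : Matrix (Fin n) (Fin n) ℂ} (hB : Bᵀ = -B) {Y : CE n} (hY : Y ∈ G 0) :
    cm (Dop B) Y ∈ G 0 := by
  rw [G] at hY
  induction hY using Submodule.span_induction with
  | mem x hx =>
    obtain ⟨J, hJ, rfl⟩ := hx
    rw [skew_decomp hB, map_sum, cm_sum_left]
    refine Submodule.sum_mem _ fun a _ => ?_
    rw [map_sum, cm_sum_left]
    refine Submodule.sum_mem _ fun b _ => ?_
    rw [map_smul, cm_smul_left]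
    exact Submodule.smul_mem _ _ (cm_skewE_mem hJ a b)
  | zero => rw [cm_zero_right]; exact Submodule.zero_mem _
  | add p q _ _ hp hq => rw [cm_add_right]; exact Submodule.add_mem _ hp hq
  | smul c p _ hp => rw [cm_smul_right]; exact Submodule.smul_mem _ c hp

end Vale.Agent.P225.LieFull
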