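import Vale.Agent.P225.LieFull.Words

/-! P225 C2: the word of length `2L` is a nonzero rank-one map on level `L` and kills lower levels. -/

open scoped BigOperators Matrix
open MvPolynomial

namespace Vale.Agent.P225.LieFull

theorem hom_induction {n : ℕ} (P : ℕ → CP n → Prop) (h0 : ∀ d, P d 0)
    (hadd : ∀ d f g, P d f → P d g → P d (f + g)) (hsmul : ∀ d (c : ℂ) f, P d f → P d (c • f))
    (hone : P 0 1)
    (hX : ∀ d (i : Fin n) (g : CP n), g.IsHomogeneous d → P d g → P (d + 1) (X i * g)) :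
    ∀ d (f : CP n), f.IsHomogeneous d → P d f := by
  have hmon : ∀ d (e : Fin n →₀ ℕ), e.degree = d → P d (monomial e (1 : ℂ)) := by
    intro d
    induction d with
    | zero => intro e he; rw [(Finsupp.degree_eq_zero_iff e).mp he]; simpa using hone
    | succ d ih =>
      intro e he
      obtain ⟨i, hi⟩ : ∃ i, e i ≠ 0 := by
        by_contra h
        push Not at h
        have : e = 0 := Finsupp.ext h
        simp [this] at he
      obtain ⟨e', rfl⟩ : ∃ e', e = Finsupp.single i 1 + e' := by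
        refine ⟨e - Finsupp.single i 1, ?_⟩
        rw [add_tsub_cancel_of_le]
        intro k
        rcases eq_or_ne k i with rfl | hk
        · simpa using Nat.one_le_iff_ne_zero.mpr hi
        · simp [hk]
      have hd : e'.degree = d := by
        rw [map_add, Finsupp.degree_single] at he; omega
      rw [show monomial (Finsupp.single i 1 + e') (1 : ℂ) = X i * monomial e' 1 by
        rw [X, monomial_mul, one_mul]]
      exact hX d i _ (isHomogeneous_monomial _ hd) (ih e' hd)
  intro d f hf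
  rw [f.as_sum]
  refine Finset.sum_induction _ (P d) (hadd d) (h0 d) fun e he => ?_
  rw [show monomial e (coeff e f) = coeff e f • monomial e (1 : ℂ) by
    rw [smul_monomial, smul_eq_mul, mul_one]]
  refine hsmul d _ _ (hmon d e ?_)
  rw [Finsupp.degree_eq_weight_one]
  exact hf (mem_support_iff.mp he)

variable {j : ℕ}

noncomputable def L1 (j : ℕ) : Submodule ℂ (CP (amb j)) := Submodule.span ℂ {lin (vz j)}

noncomputable def L0 (j : ℕ) : Submodule ℂ (CP (amb j)) where
  carrier := {f | ∃ b, b ⬝ᵥ vz j = 0 ∧ f = lin b}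
  add_mem' := by
    rintro _ _ ⟨a, ha, rfl⟩ ⟨b, hb, rfl⟩
    exact ⟨a + b, by rw [add_dotProduct, ha, hb, add_zero], (map_add _ _ _).symm⟩
  zero_mem' := ⟨0, zero_dotProduct _, (map_zero _).symm⟩
  smul_mem' := by
    rintro c _ ⟨a, ha, rfl⟩
    exact ⟨c • a, by rw [smul_dotProduct, ha, smul_zero], (map_smul _ _ _).symm⟩

noncomputable def Lm (j : ℕ) : Submodule ℂ (CP (amb j)) := LinearMap.range lin

/-- Degree `d`, weight at least `k`. -/
noncomputable def F (j : ℕ) : ℕ → ℤ → Submodule ℂ (CP (amb j))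
  | 0, k => if k ≤ 0 then Submodule.span ℂ {1} else ⊥
  | d + 1, k => Lm j * F j d (k + 1) ⊔ L0 j * F j d k ⊔ L1 j * F j d (k - 1)

theorem mem_Lm (d : ℕ) (k : ℤ) {l g : CP (amb j)} (hl : l ∈ Lm j) (hg : g ∈ F j d (k + 1)) :
    l * g ∈ F j (d + 1) k :=
  Submodule.mem_sup_left (Submodule.mem_sup_left (Submodule.mul_mem_mul hl hg))

theorem mem_L0 (d : ℕ) (k : ℤ) {l g : CP (amb j)} (hl : l ∈ L0 j) (hg : g ∈ F j d k) :
    l * g ∈ F j (d + 1) k :=
  Submodule.mem_sup_left (Submodule.mem_sup_right (Submodule.mul_mem_mul hl hg))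

theorem mem_L1 (d : ℕ) (k : ℤ) {l g : CP (amb j)} (hl : l ∈ L1 j) (hg : g ∈ F j d (k - 1)) :
    l * g ∈ F j (d + 1) k :=
  Submodule.mem_sup_right (Submodule.mul_mem_mul hl hg)

theorem F_eq_bot : ∀ (d : ℕ) (k : ℤ), (d : ℤ) < k → F j d k = ⊥
  | 0, k, h => by rw [F, if_neg (by omega)]
  | d + 1, k, h => by
    rw [F, F_eq_bot d (k + 1) (by omega), F_eq_bot d k (by omega), F_eq_bot d (k - 1) (by omega)]
    simp

theorem F_top : ∀ (d : ℕ), F j d (d : ℤ) ≤ Submodule.span ℂ {lin (vz j) ^ d}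
  | 0 => by simp [F]
  | d + 1 => by
    rw [F, F_eq_bot d _ (by omega), F_eq_bot d ((d + 1 : ℕ) : ℤ) (by omega)]
    simp only [Submodule.mul_bot, bot_sup_eq, Nat.cast_add, Nat.cast_one, add_sub_cancel_right]
    refine (mul_le_mul' le_rfl (F_top d)).trans ?_
    rw [L1, Submodule.span_mul_span, Set.singleton_mul_singleton, pow_succ']

theorem Aop_L1 (hj : 3 ≤ j) (a : Let) {l : CP (amb j)} (hl : l ∈ L1 j) : Aop j a l = 0 := by
  obtain ⟨c, rfl⟩ := Submodule.mem_span_singleton.mp hl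
  rw [map_smul, Aop_lin, vz_vz, vz_vl hj]
  simp

theorem Aop_L0 (a : Let) {l : CP (amb j)} (hl : l ∈ L0 j) : Aop j a l ∈ L1 j := by
  obtain ⟨b, hb, rfl⟩ := hl
  rw [Aop_lin, hb, zero_smul, zero_sub]
  exact Submodule.neg_mem _ (Submodule.smul_mem _ _ (Submodule.mem_span_singleton_self _))

theorem Aop_Lm (hj : 3 ≤ j) (a : Let) {l : CP (amb j)} (hl : l ∈ Lm j) : Aop j a l ∈ L0 j := by
  obtain ⟨b, rfl⟩ := hl
  rw [Aop_lin, ← map_smul, ← map_smul, ← map_sub]
  exact ⟨_, by simp [sub_dotProduct, vl_vz hj, vz_vz], rfl⟩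

theorem Aop_F (hj : 3 ≤ j) (a : Let) :
    ∀ (d : ℕ) (k : ℤ) (f : CP (amb j)), f ∈ F j d k → Aop j a f ∈ F j d (k + 1) := by
  intro d
  induction d with
  | zero =>
    intro k f hf
    have h : Aop j a f = 0 := by
      rw [F] at hf
      split_ifs at hf
      · obtain ⟨c, rfl⟩ := Submodule.mem_span_singleton.mp hf
        rw [map_smul, Aop, Dop_apply, Derivation.map_one_eq_zero, smul_zero]
      · simp [(Submodule.mem_bot ℂ).mp hf]
    rw [h]; exact Submodule.zero_mem _
  | succ d ih =>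
    intro k f hf
    have key : F j (d + 1) k ≤ (F j (d + 1) (k + 1)).comap (Aop j a) := by
      conv_lhs => rw [F]
      refine sup_le (sup_le ?_ ?_) ?_ <;> refine Submodule.mul_le.mpr fun l hl g hg => ?_ <;>
        rw [Submodule.mem_comap, Aop_leibniz]
      · refine Submodule.add_mem _ (mem_L0 d _ (Aop_Lm hj a hl) hg) (mem_Lm d _ hl ?_)
        have := ih (k + 1) g hg
        exact this
      · refine Submodule.add_mem _ (mem_L1 d _ (Aop_L0 a hl) ?_) (mem_L0 d _ hl (ih k g hg))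
        rwa [add_sub_cancel_right]
      · rw [Aop_L1 hj a hl, zero_mul, zero_add]
        refine mem_L1 d _ hl ?_
        have := ih (k - 1) g hg
        rwa [show k + 1 - 1 = k - 1 + 1 by omega]
    exact key hf

theorem Wd_F (hj : 3 ≤ j) (w : List Let) (d : ℕ) (k : ℤ) (f : CP (amb j)) (hf : f ∈ F j d k) :
    Wd j w f ∈ F j d (k + w.length) := by
  induction w with
  | nil => simpa [Wd] using hf
  | cons a w ih =>
    rw [Wd_cons, Module.End.mul_apply, List.length_cons, Nat.cast_add, Nat.cast_one, ← add_assoc]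
    exact Aop_F hj a d _ _ ih

theorem hom_decomp : ∀ d (f : CP (amb j)), f.IsHomogeneous d →
    f ∈ F j d (-(d : ℤ)) ∧
      f - (eval (vz j) f / 2 ^ d) • lin (vzb j) ^ d ∈ F j d (-(d : ℤ) + 1) := by
  refine hom_induction _ ?_ ?_ ?_ ?_ ?_
  · intro d; simp
  · rintro d f g ⟨hf, hf'⟩ ⟨hg, hg'⟩
    refine ⟨Submodule.add_mem _ hf hg, ?_⟩
    have := Submodule.add_mem _ hf' hg'
    convert this using 1
    rw [map_add, add_div, add_smul]; abel
  · rintro d c f ⟨hf, hf'⟩
    refine ⟨Submodule.smul_mem _ c hf, ?_⟩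
    have := Submodule.smul_mem _ c hf'
    convert this using 1
    rw [smul_sub, smul_smul]
    simp [mul_div_assoc]
  · refine ⟨?_, by simp⟩
    simp [F, Submodule.mem_span_singleton_self]
  · rintro d i g - ⟨hg, hg'⟩
    have hXm : (X i : CP (amb j)) ∈ Lm j := ⟨Pi.single i 1, lin_single i⟩
    refine ⟨mem_Lm d _ hXm ?_, ?_⟩
    · rwa [show -((d + 1 : ℕ) : ℤ) + 1 = -(d : ℤ) by omega]
    rw [show -((d + 1 : ℕ) : ℤ) + 1 = -(d : ℤ) by omega]
    set c : ℂ := vz j i / 2
    set c' : ℂ := eval (vz j) g / 2 ^ d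
    have e : X i * g - (eval (vz j) (X i * g) / 2 ^ (d + 1)) • lin (vzb j) ^ (d + 1) =
        (X i - c • lin (vzb j)) * g + (c • lin (vzb j)) * (g - c' • lin (vzb j) ^ d) := by
      rw [show eval (vz j) (X i * g) / 2 ^ (d + 1) = c * c' by
        simp only [c, c', map_mul, eval_X]; ring]
      simp only [smul_eq_C_mul, map_mul]
      ring
    rw [e]
    refine Submodule.add_mem _ (mem_L0 d _ ?_ hg) (mem_Lm d _ ?_ hg')
    · refine ⟨Pi.single i 1 - c • vzb j, ?_, by rw [map_sub, map_smul, lin_single]⟩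
      simp [sub_dotProduct, vzb_vz, c]
    · exact ⟨c • vzb j, map_smul _ _ _⟩

/-! ### the evaluation along the unipotent orbit -/

abbrev TP := MvPolynomial Let ℂ

noncomputable def qN : MvPolynomial Let ℕ := ∑ k : Fin 3, X (k, false) * X (k, true)

noncomputable def qC : TP := ∑ k : Fin 3, X (k, false) * X (k, true)

theorem pderiv_qC (a : Let) : pderiv a qC = X (flip' a) := by
  obtain ⟨k, s⟩ := a
  cases s <;> simp [qC, flip', pderiv_X, Pi.single_apply, Prod.ext_iff]

noncomputable def point (j : ℕ) (i : Fin (amb j)) : TP :=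
  C (vzb j i / 2) - C (2 * vz j i) * qC - ∑ a : Let, C (vl j a i) * X a

noncomputable def Lam (j : ℕ) : CP (amb j) →ₐ[ℂ] TP := aeval (point j)

theorem Lam_lin (b : Fin (amb j) → ℂ) : Lam j (lin b) =
    C ((b ⬝ᵥ vzb j) / 2) - C (2 * (b ⬝ᵥ vz j)) * qC - ∑ a : Let, C (b ⬝ᵥ vl j a) * X a := by
  have h : ∀ i, Lam j (b i • X i) = C (b i * vzb j i / 2) - C (2 * (b i * vz j i)) * qC -
      ∑ a : Let, C (b i * vl j a i) * X a := by
    intro i
    rw [map_smul, Lam, aeval_X, point, smul_eq_C_mul, mul_sub, mul_sub, Finset.mul_sum, ← map_mul,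
      ← mul_assoc, ← map_mul]
    congr 1
    · rw [mul_div_assoc]
      ring_nf
    · exact Finset.sum_congr rfl fun a _ => by rw [← mul_assoc, ← map_mul]
  rw [lin_apply, map_sum, Finset.sum_congr rfl fun i _ => h i, Finset.sum_sub_distrib,
    Finset.sum_sub_distrib]
  congr 1
  · simp only [← Finset.sum_mul, ← map_sum, dotProduct, ← Finset.mul_sum, ← Finset.sum_div]
  · rw [Finset.sum_comm]
    simp only [← Finset.sum_mul, ← map_sum, dotProduct]

theorem Lam_lz (hj : 3 ≤ j) : Lam j (lin (vz j)) = 1 := by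
  simp [Lam_lin, vz_vzb, vz_vz, vz_vl hj]

theorem Lam_lzb (hj : 3 ≤ j) : Lam j (lin (vzb j)) = -C 4 * qC := by
  simp [Lam_lin, vzb_vzb, vzb_vz, vzb_vl hj]
  rw [show (4 : ℂ) = 2 * 2 by norm_num, map_mul]; simp

theorem Lam_lvl (hj : 3 ≤ j) (a : Let) : Lam j (lin (vl j a)) = -C 2 * X (flip' a) := by
  simp [Lam_lin, vl_vzb hj, vl_vz hj, vl_vl hj, apply_ite (C : ℂ → TP)]

theorem pderiv_point (a : Let) (i : Fin (amb j)) :
    pderiv a (point j i) = -C (2 * vz j i) * X (flip' a) - C (vl j a i) := by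
  simp [point, pderiv_qC, pderiv_X, Pi.single_apply, map_sum]

theorem Lam_Aop (hj : 3 ≤ j) (a : Let) (f : CP (amb j)) :
    Lam j (Aop j a f) = pderiv a (Lam j f) := by
  induction f using MvPolynomial.induction_on with
  | C c => simp [Aop, Dop_apply, ← MvPolynomial.algebraMap_eq]
  | add p q hp hq => simp [hp, hq]
  | mul_X p i hp =>
    rw [Aop_leibniz, map_add, map_mul, map_mul, map_mul, Derivation.leibniz, hp, Aop_X]
    simp only [map_sub, map_smul, Lam_lvl hj, Lam_lz hj, smul_eq_mul]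
    rw [show Lam j (X i) = point j i from aeval_X _ i, pderiv_point, smul_eq_C_mul, smul_eq_C_mul,
      map_mul]
    ring

noncomputable def dlist : List Let → TP → TP
  | [], p => p
  | a :: w, p => pderiv a (dlist w p)

theorem Lam_Wd (hj : 3 ≤ j) (w : List Let) (f : CP (amb j)) :
    Lam j (Wd j w f) = dlist w (Lam j f) := by
  induction w with
  | nil => simp [Wd, dlist]
  | cons a w ih => rw [Wd_cons, Module.End.mul_apply, Lam_Aop hj, ih, dlist]

/-- Exponent vector of a word. -/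
noncomputable def expo (w : List Let) : Let →₀ ℕ := (w.map fun a => Finsupp.single a 1).sum

theorem coeff_dlist : ∀ (w : List Let) (e : Let →₀ ℕ), ∃ m : ℕ, 0 < m ∧
    ∀ p : TP, coeff e (dlist w p) = (m : ℂ) * coeff (e + expo w) p
  | [], e => ⟨1, one_pos, fun p => by simp [dlist, expo]⟩
  | a :: w, e => by
    obtain ⟨m, hm, h⟩ := coeff_dlist w (e + Finsupp.single a 1)
    refine ⟨m * (e a + 1), by positivity, fun p => ?_⟩
    rw [dlist, coeff_pderiv, h]
    simp only [expo, List.map_cons, List.sum_cons, add_assoc]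
    push_cast; ring

theorem coeff_mul_le (p q : MvPolynomial Let ℕ) (e e' : Let →₀ ℕ) :
    coeff e p * coeff e' q ≤ coeff (e + e') (p * q) := by
  classical
  rw [coeff_mul]
  exact Finset.single_le_sum (f := fun x : (Let →₀ ℕ) × (Let →₀ ℕ) => coeff x.1 p * coeff x.2 q)
    (fun _ _ => Nat.zero_le _) (a := (e, e')) (by simp)

/-- Exponent vector of one pair. -/
noncomputable def pr (k : Fin 3) : Let →₀ ℕ :=
  Finsupp.single (k, false) 1 + Finsupp.single (k, true) 1

theorem coeff_qN (k : Fin 3) : 1 ≤ coeff (pr k) qN := by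
  rw [qN, coeff_sum]
  refine le_trans ?_ (Finset.single_le_sum (fun _ _ => Nat.zero_le _) (Finset.mem_univ k))
  simp [X, monomial_mul, pr]

theorem coeff_pow_pos (a b : ℕ) (e e' : Let →₀ ℕ) (h : 0 < coeff e (qN ^ a))
    (h' : 0 < coeff e' (qN ^ b)) : 0 < coeff (e + e') (qN ^ (a + b)) := by
  rw [pow_add]
  exact lt_of_lt_of_le (Nat.mul_pos h h') (coeff_mul_le _ _ _ _)

theorem expo_append (w w' : List Let) : expo (w ++ w') = expo w + expo w' := by
  simp [expo]

theorem coeff_word : ∀ L, 2 ≤ L → 0 < coeff (expo (word L)) (qN ^ L) := by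
  have h1 : ∀ k, 0 < coeff (pr k) (qN ^ 1) := fun k => by rw [pow_one]; exact coeff_qN k
  have h4 : 0 < coeff (expo w4) (qN ^ 2) := by
    have := coeff_pow_pos 1 1 _ _ (h1 0) (h1 1)
    convert this using 2
    simp [expo, w4, pr]; abel
  have h6 : 0 < coeff (expo w6) (qN ^ 3) := by
    have := coeff_pow_pos 2 1 _ _ (coeff_pow_pos 1 1 _ _ (h1 0) (h1 1)) (h1 2)
    convert this using 2
    simp [expo, w6, pr]; abel
  intro L
  induction L using Nat.strong_induction_on with
  | _ L ih =>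
    match L with
    | 0 | 1 => intro h; omega
    | 2 => intro _; exact h4
    | 3 => intro _; exact h6
    | L + 4 =>
      intro _
      rw [word, expo_append, show L + 4 = 2 + (L + 2) by omega]
      exact coeff_pow_pos _ _ _ _ h4 (ih (L + 2) (by omega) (by omega))

theorem word_action (hj : 3 ≤ j) (L : ℕ) (hL : 2 ≤ L) :
    ∃ γ : ℂ, γ ≠ 0 ∧
      (∀ f : CP (amb j), f.IsHomogeneous L →
        Wd j (word L) f = (γ * eval (vz j) f) • lin (vz j) ^ L) ∧
      ∀ d, d < L → ∀ f : CP (amb j), f.IsHomogeneous d → Wd j (word L) f = 0 := by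
  have hlow : ∀ d (k : ℤ) f, f ∈ F j d k → (d : ℤ) < k + 2 * L → Wd j (word L) f = 0 := by
    intro d k f hf hlt
    have := Wd_F hj (word L) d k f hf
    rw [word_length L hL, F_eq_bot d _ (by push_cast; omega)] at this
    exact (Submodule.mem_bot ℂ).mp this
  have hzb : (lin (vzb j) ^ L).IsHomogeneous L := by
    have : (lin (vzb j)).IsHomogeneous 1 := by
      rw [lin_apply]
      exact IsHomogeneous.sum _ _ _ fun i _ =>
        (homogeneousSubmodule _ ℂ 1).smul_mem _ (isHomogeneous_X ℂ i)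
    simpa using this.pow L
  obtain ⟨g, hg⟩ : ∃ g : ℂ, g • lin (vz j) ^ L = Wd j (word L) (lin (vzb j) ^ L) := by
    have h := Wd_F hj (word L) L _ _ (hom_decomp L _ hzb).1
    rw [word_length L hL, show -(L : ℤ) + ((2 * L : ℕ) : ℤ) = (L : ℤ) by push_cast; ring] at h
    exact Submodule.mem_span_singleton.mp (F_top L h)
  have hg0 : g ≠ 0 := by
    intro h0
    have h := congrArg (Lam j) hg
    rw [Lam_Wd hj, h0, zero_smul, map_zero, map_pow, Lam_lzb hj] at h
    have hq : qC = MvPolynomial.map (Nat.castRingHom ℂ) qN := by simp [qC, qN]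
    obtain ⟨m, hm, hc⟩ := coeff_dlist (word L) 0
    have h2 := congrArg (coeff 0) h.symm
    rw [hc, zero_add, coeff_zero, mul_pow, ← map_neg, ← map_pow, coeff_C_mul, hq, ← map_pow,
      coeff_map] at h2
    have hpos := coeff_word L hL
    simp [Nat.pos_iff_ne_zero.mp hm, Nat.pos_iff_ne_zero.mp hpos] at h2
  refine ⟨g / 2 ^ L, div_ne_zero hg0 (pow_ne_zero _ two_ne_zero), ?_, ?_⟩
  · intro f hf
    have h := hlow L _ _ (hom_decomp L f hf).2 (by omega)
    rw [map_sub, map_smul, sub_eq_zero, ← hg, smul_smul] at h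
    rw [h]; congr 1; ring
  · intro d hd f hf
    exact hlow d _ _ (hom_decomp d f hf).1 (by omega)

end Vale.Agent.P225.LieFull
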