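import Vale.Agent.P225.LieFull.Ops

/-! P225 C2: the nilpotent operators `A_a` and the balanced words lying in the bracket filtration. -/

open scoped BigOperators Matrix
open MvPolynomial

namespace Vale.Agent.P225.LieFull

/-- Letters: three hyperbolic pairs. -/
abbrev Let := Fin 3 × Bool

def flip' (a : Let) : Let := (a.1, !a.2)

noncomputable def sgI (b : Bool) : ℂ := if b then -Complex.I else Complex.I

theorem sgI_sq (b : Bool) : sgI b * sgI b = -1 := by
  cases b <;> simp [sgI]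

variable {j : ℕ}

/-- `e_{2p} + ε e_{2p+1}`. -/
noncomputable def cv (p : ℕ) (ε : ℂ) : Fin (amb j) → ℂ := fun i =>
  if (i : ℕ) = 2 * p then 1 else if (i : ℕ) = 2 * p + 1 then ε else 0

theorem cv_eq (p : ℕ) (h : p ≤ j) (ε : ℂ) : (cv p ε : Fin (amb j) → ℂ) =
    Pi.single (⟨2 * p, by simp only [amb]; omega⟩ : Fin (amb j)) 1 +
      Pi.single (⟨2 * p + 1, by simp only [amb]; omega⟩ : Fin (amb j)) ε := by
  ext i
  simp only [cv, Pi.add_apply, Pi.single_apply, Fin.ext_iff]
  split_ifs <;> first | omega | simp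

theorem cv_dot (p q : ℕ) (hp : p ≤ j) (hq : q ≤ j) (ε δ : ℂ) :
    (cv p ε : Fin (amb j) → ℂ) ⬝ᵥ cv q δ = if p = q then 1 + ε * δ else 0 := by
  rw [cv_eq p hp]
  simp only [add_dotProduct, single_dotProduct, one_mul, cv]
  split_ifs <;> first | omega | ring

/-- `z`, isotropic. -/
noncomputable def vz (j : ℕ) : Fin (amb j) → ℂ := cv 0 Complex.I

/-- `z̄`. -/
noncomputable def vzb (j : ℕ) : Fin (amb j) → ℂ := cv 0 (-Complex.I)

/-- The vector of a letter. -/
noncomputable def vl (j : ℕ) (a : Let) : Fin (amb j) → ℂ := cv ((a.1 : ℕ) + 1) (sgI a.2)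

theorem vz_vz : vz j ⬝ᵥ vz j = 0 := by
  rw [vz, cv_dot 0 0 (Nat.zero_le j) (Nat.zero_le j)]; simp

theorem vzb_vzb : vzb j ⬝ᵥ vzb j = 0 := by
  rw [vzb, cv_dot 0 0 (Nat.zero_le j) (Nat.zero_le j)]; simp

theorem vz_vzb : vz j ⬝ᵥ vzb j = 2 := by
  rw [vz, vzb, cv_dot 0 0 (Nat.zero_le j) (Nat.zero_le j)]; simp; norm_num

theorem vzb_vz : vzb j ⬝ᵥ vz j = 2 := by rw [dotProduct_comm, vz_vzb]

theorem vl_vz (hj : 3 ≤ j) (a : Let) : vl j a ⬝ᵥ vz j = 0 := by
  rw [vz, vl, cv_dot _ _ (by omega) (Nat.zero_le j)]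
  simp

theorem vz_vl (hj : 3 ≤ j) (a : Let) : vz j ⬝ᵥ vl j a = 0 := by rw [dotProduct_comm, vl_vz hj]

theorem vl_vzb (hj : 3 ≤ j) (a : Let) : vl j a ⬝ᵥ vzb j = 0 := by
  rw [vzb, vl, cv_dot _ _ (by omega) (Nat.zero_le j)]
  simp

theorem vzb_vl (hj : 3 ≤ j) (a : Let) : vzb j ⬝ᵥ vl j a = 0 := by rw [dotProduct_comm, vl_vzb hj]

theorem vl_vl (hj : 3 ≤ j) (a b : Let) : vl j a ⬝ᵥ vl j b = if b = flip' a then 2 else 0 := by
  rw [vl, vl, cv_dot _ _ (by omega) (by omega)]
  obtain ⟨k, s⟩ := a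
  obtain ⟨l, t⟩ := b
  rcases eq_or_ne k l with rfl | h
  · cases s <;> cases t <;> simp [flip', sgI] <;> norm_num
  · have h1 : ¬ (k : ℕ) = (l : ℕ) := fun e => h (Fin.ext e)
    simp [flip', h1, Ne.symm h]

/-- `z aᵀ - a zᵀ`. -/
noncomputable def Amat (j : ℕ) (a : Let) : Matrix (Fin (amb j)) (Fin (amb j)) ℂ :=
  Matrix.vecMulVec (vz j) (vl j a) - Matrix.vecMulVec (vl j a) (vz j)

theorem Amat_skew (a : Let) : (Amat j a)ᵀ = -Amat j a := by
  simp [Amat, Matrix.transpose_vecMulVec]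

/-- `A_a`. -/
noncomputable def Aop (j : ℕ) (a : Let) : CE (amb j) := Dop (Amat j a)

theorem Aop_X (a : Let) (i : Fin (amb j)) :
    Aop j a (X i) = vz j i • lin (vl j a) - vl j a i • lin (vz j) := by
  rw [Aop, Dop_apply, der_X, ← map_smul, ← map_smul, ← map_sub]
  congr 1

theorem Aop_lin (a : Let) (b : Fin (amb j) → ℂ) :
    Aop j a (lin b) = (b ⬝ᵥ vz j) • lin (vl j a) - (b ⬝ᵥ vl j a) • lin (vz j) := by
  rw [Aop, Dop_apply, der_lin, ← map_smul, ← map_smul, ← map_sub]
  congr 1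
  simp [Amat, Matrix.vecMul_sub, Matrix.vecMul_vecMulVec]

theorem Aop_leibniz (a : Let) (f g : CP (amb j)) :
    Aop j a (f * g) = Aop j a f * g + f * Aop j a g := by
  simp only [Aop, Dop_apply, Derivation.leibniz, smul_eq_mul]
  ring

theorem Aop_comm (hj : 3 ≤ j) (a b : Let) : Aop j a * Aop j b = Aop j b * Aop j a := by
  have h := cm_Dop (Amat j a) (Amat j b)
  have h0 : Amat j b * Amat j a - Amat j a * Amat j b = 0 := by
    simp only [Amat, sub_mul, mul_sub, Matrix.vecMulVec_mul_vecMulVec, vl_vz hj, vz_vl hj, vz_vz,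
      zero_smul, Matrix.vecMulVec_zero]
    rw [dotProduct_comm (vl j b) (vl j a)]
    simp
  rw [h0, map_zero, cm, sub_eq_zero] at h
  exact h

/-- A word in the `A`'s. -/
noncomputable def Wd (j : ℕ) (w : List Let) : CE (amb j) := (w.map (Aop j)).prod

theorem Wd_cons (a : Let) (w : List Let) : Wd j (a :: w) = Aop j a * Wd j w := by
  simp [Wd]

theorem Wd_append (w w' : List Let) : Wd j (w ++ w') = Wd j w * Wd j w' := by
  simp [Wd]

theorem Wd_comm (hj : 3 ≤ j) (w w' : List Let) : Wd j w * Wd j w' = Wd j w' * Wd j w := by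
  have h : ∀ a, Commute (Aop j a) (Wd j w') := by
    intro a
    refine Commute.list_prod_right _ _ fun x hx => ?_
    obtain ⟨b, -, rfl⟩ := List.mem_map.mp hx
    exact Aop_comm hj a b
  refine (Commute.list_prod_left _ _ fun x hx => ?_).eq
  obtain ⟨a, -, rfl⟩ := List.mem_map.mp hx
  exact h a

/-- Signs of the blocks. -/
def sgn (σ : Fin 3 → Bool) (p : ℕ) : ℝ :=
  if h : 1 ≤ p ∧ p ≤ 3 then (if σ ⟨p - 1, by omega⟩ then -1 else 1) else 1

theorem sgn_sq (σ : Fin 3 → Bool) (p : ℕ) : sgn σ p * sgn σ p = 1 := by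
  simp only [sgn]; split_ifs <;> simp

/-- Pairing of the coordinates. -/
def partner (i : Fin (amb j)) : Fin (amb j) :=
  ⟨if (i : ℕ) % 2 = 0 then i + 1 else i - 1, by
    have := i.isLt; simp only [amb] at this ⊢; split <;> omega⟩

theorem partner_val (i : Fin (amb j)) :
    (partner i : ℕ) = if (i : ℕ) % 2 = 0 then (i : ℕ) + 1 else (i : ℕ) - 1 := rfl

theorem partner_partner (i : Fin (amb j)) : partner (partner i) = i := by
  apply Fin.ext
  simp only [partner_val]
  split_ifs <;> omega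

/-- Coefficient of the block complex structure. -/
def coef (σ : Fin 3 → Bool) (i : Fin (amb j)) : ℝ :=
  if (i : ℕ) % 2 = 0 then -sgn σ ((i : ℕ) / 2) else sgn σ ((i : ℕ) / 2)

theorem coef_partner (σ : Fin 3 → Bool) (i : Fin (amb j)) :
    coef σ (partner i) = -coef σ i := by
  have hv := partner_val i
  simp only [coef]
  by_cases h : (i : ℕ) % 2 = 0
  · rw [if_pos h] at hv
    rw [if_pos h, if_neg (show ¬ (partner i : ℕ) % 2 = 0 by omega), neg_neg,
      show (partner i : ℕ) / 2 = (i : ℕ) / 2 by omega]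
  · rw [if_neg h] at hv
    rw [if_neg h, if_pos (show (partner i : ℕ) % 2 = 0 by omega),
      show (partner i : ℕ) / 2 = (i : ℕ) / 2 by omega]

/-- Block complex structure with signs. -/
def Jσ (σ : Fin 3 → Bool) : Matrix (Fin (amb j)) (Fin (amb j)) ℝ := Matrix.of fun i k =>
  if k = partner i then coef σ i else 0

theorem isCS_Jσ (σ : Fin 3 → Bool) : IsCS (Jσ σ : Matrix (Fin (amb j)) (Fin (amb j)) ℝ) := by
  refine ⟨?_, ?_⟩
  · ext i k
    simp only [Matrix.transpose_apply, Matrix.neg_apply, Jσ, Matrix.of_apply]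
    by_cases h : k = partner i
    · subst h; simp [partner_partner, coef_partner]
    · rw [if_neg h, if_neg]
      · simp
      · rintro rfl; exact h (partner_partner k).symm
  · ext i k
    simp only [Matrix.mul_apply, Jσ, Matrix.of_apply, ite_mul, zero_mul, Finset.sum_ite_eq',
      Finset.mem_univ, if_true, partner_partner, Matrix.neg_apply, Matrix.one_apply, coef_partner]
    by_cases h : i = k
    · subst h
      simp [coef]
      split_ifs <;> simp [sgn_sq]
    · simp [h, Ne.symm h]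

theorem mulVec_cv (σ : Fin 3 → Bool) (p : ℕ) (ε : ℂ) (hε : ε * ε = -1) :
    cMat (Jσ σ) *ᵥ (cv p ε : Fin (amb j) → ℂ) = (-(sgn σ p : ℂ) * ε) • cv p ε := by
  ext i
  simp only [Matrix.mulVec, dotProduct, cMat, Matrix.map_apply, Jσ, Matrix.of_apply,
    apply_ite (algebraMap ℝ ℂ), map_zero, ite_mul, zero_mul, Finset.sum_ite_eq', Finset.mem_univ,
    if_true, Pi.smul_apply, smul_eq_mul, cv, coef]
  have hv := partner_val i
  by_cases h : (i : ℕ) % 2 = 0
  · rw [if_pos h] at hv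
    rw [if_pos h]
    by_cases h2 : (i : ℕ) = 2 * p
    · rw [if_neg (by omega), if_pos (by omega), if_pos h2, show (i : ℕ) / 2 = p by omega]
      simp
    · rw [if_neg (by omega), if_neg (by omega), if_neg h2, if_neg (by omega)]
      simp
  · rw [if_neg h] at hv
    rw [if_neg h]
    by_cases h2 : (i : ℕ) = 2 * p + 1
    · rw [if_pos (by omega), if_neg (by omega), if_pos h2, show (i : ℕ) / 2 = p by omega]
      linear_combination (sgn σ p : ℂ) * hε
    · rw [if_neg (by omega), if_neg (by omega), if_neg (by omega), if_neg h2]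
      simp

/-- `a` is kept by `σ`. -/
def kept (σ : Fin 3 → Bool) (a : Let) : Bool := σ a.1 == a.2

theorem mulVec_vl (σ : Fin 3 → Bool) (a : Let) : cMat (Jσ σ) *ᵥ vl j a =
    (if kept σ a then -Complex.I else Complex.I) • vl j a := by
  rw [vl, mulVec_cv σ _ _ (sgI_sq a.2)]
  congr 1
  obtain ⟨k, s⟩ := a
  have hk : ((k : ℕ) + 1 : ℕ) - 1 = (k : ℕ) := by omega
  have h : sgn σ ((k : ℕ) + 1) = if σ k then -1 else 1 := by
    simp only [sgn]
    rw [dif_pos ⟨by omega, by omega⟩]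
    congr
  simp only [h, kept]
  cases s <;> by_cases hσ : σ k = true <;> simp [sgI, hσ]

theorem mulVec_vz (σ : Fin 3 → Bool) : cMat (Jσ σ) *ᵥ vz j = -Complex.I • vz j := by
  rw [vz, mulVec_cv σ 0 _ Complex.I_mul_I]
  simp [sgn]

/-- The eigenvalue of `ad D_J` on a word. -/
noncomputable def wt (σ : Fin 3 → Bool) (w : List Let) : ℂ :=
  (w.countP (kept σ) : ℂ) * (2 * Complex.I)

theorem cm_DJ_Aop (σ : Fin 3 → Bool) (a : Let) :
    cm (Dop (cMat (Jσ σ))) (Aop j a) = wt σ [a] • Aop j a := by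
  rw [Aop, cm_Dop, ← map_smul]
  congr 1
  have hT : (cMat (Jσ σ : Matrix (Fin (amb j)) (Fin (amb j)) ℝ))ᵀ = -cMat (Jσ σ) := by
    ext i k
    have := congrFun (congrFun (isCS_Jσ (j := j) σ).1 i) k
    simp only [Matrix.transpose_apply, Matrix.neg_apply] at this
    simp [cMat, this]
  have hv : ∀ v, v ᵥ* cMat (Jσ σ : Matrix (Fin (amb j)) (Fin (amb j)) ℝ) =
      -(cMat (Jσ σ) *ᵥ v) := by
    intro v
    rw [← Matrix.mulVec_transpose, hT, Matrix.neg_mulVec]
  simp only [Amat, sub_mul, mul_sub, Matrix.mul_vecMulVec, Matrix.vecMulVec_mul, hv, mulVec_vl,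
    mulVec_vz, smul_sub]
  ext i k
  simp only [Matrix.sub_apply, Matrix.vecMulVec_apply, Pi.neg_apply, Pi.smul_apply, smul_eq_mul,
    Matrix.smul_apply, wt, List.countP_cons, List.countP_nil]
  cases kept σ a <;> simp <;> ring

theorem cm_DJ_Wd (σ : Fin 3 → Bool) (w : List Let) :
    cm (Dop (cMat (Jσ σ))) (Wd j w) = wt σ w • Wd j w := by
  induction w with
  | nil => simp [Wd, cm, wt]
  | cons a w ih =>
    have e : wt σ (a :: w) = wt σ [a] + wt σ w := by
      simp only [wt, List.countP_cons, List.countP_nil]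
      push_cast; ring
    have h : ∀ d x y : CE (amb j), cm d (x * y) = cm d x * y + x * cm d y := by
      intro d x y
      simp only [cm, mul_sub, sub_mul, mul_assoc]; abel
    rw [Wd_cons, h, cm_DJ_Aop, ih, e, add_smul, smul_mul_assoc, mul_smul_comm]

section ring

variable {A : Type*} [Ring A] [Algebra ℂ A]

theorem bracket_formula (d p r : A) (μ ν : ℂ) (hp : cm d p = μ • p) (hr : cm d r = ν • r)
    (hpr : p * r = r * p) : cm r (cm (-(d * d)) p) = (2 * μ * ν) • (p * r) := by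
  have h1 : cm (-(d * d)) p = -(μ • (d * p + p * d)) := by
    calc cm (-(d * d)) p = -(d * cm d p + cm d p * d) := by
          simp only [cm, mul_sub, sub_mul, mul_neg, neg_mul, mul_assoc]; abel
      _ = _ := by rw [hp, mul_smul_comm, smul_mul_assoc, smul_add]
  have h3 : r * d = d * r - ν • r := by rw [← hr, cm]; abel
  have h4 : r * (d * p) = d * p * r - ν • (p * r) := by
    rw [← mul_assoc, h3, sub_mul, smul_mul_assoc, mul_assoc, ← hpr, ← mul_assoc]
  have h5 : r * (p * d) = p * d * r - ν • (p * r) := by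
    rw [← mul_assoc, ← hpr, mul_assoc, h3, mul_sub, mul_smul_comm, ← mul_assoc]
  rw [h1, cm, mul_neg, neg_mul, mul_smul_comm, smul_mul_assoc, mul_add, add_mul, h4, h5]
  module

theorem quad_formula (d a b : A) (μ : ℂ) (ha : cm d a = μ • a) (hb : cm d b = μ • b)
    (hab : a * b = b * a) : cm a (cm b (-(d * d))) = (-(2 * (μ * μ))) • (a * b) := by
  have h1 : cm b (-(d * d)) = μ • (d * b + b * d) := by
    calc cm b (-(d * d)) = d * cm d b + cm d b * d := by
          simp only [cm, mul_sub, sub_mul, mul_neg, neg_mul, mul_assoc]; abel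
      _ = _ := by rw [hb, mul_smul_comm, smul_mul_assoc, smul_add]
  have h3 : a * d = d * a - μ • a := by rw [← ha, cm]; abel
  have h3' : d * a = a * d + μ • a := by rw [h3]; abel
  have h4 : a * (d * b) = d * (a * b) - μ • (a * b) := by
    rw [← mul_assoc, h3, sub_mul, smul_mul_assoc, mul_assoc]
  have h5 : b * d * a = a * b * d + μ • (a * b) := by
    rw [mul_assoc, h3', mul_add, mul_smul_comm, ← mul_assoc, ← hab]
  rw [h1, cm, mul_smul_comm, smul_mul_assoc, mul_add, add_mul, h4, h5, mul_assoc d b a, ← hab,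
    ← mul_assoc a b d]
  module

end ring

/-- The word gives an element of the bracket filtration. -/
def InG (j : ℕ) (w : List Let) : Prop := ∃ m, Wd j w ∈ G m

theorem inG_pair (hj : 3 ≤ j) (σ : Fin 3 → Bool) (a b : Let) (ha : kept σ a = true) (hb : kept σ b = true) :
    InG j [a, b] := by
  refine ⟨0, ?_⟩
  have h1 := cm_DJ_Aop (j := j) σ a
  have h2 := cm_DJ_Aop (j := j) σ b
  have e : ∀ c : Let, kept σ c = true → wt σ [c] = 2 * Complex.I := by
    intro c hc; simp [wt, hc]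
  rw [e a ha] at h1
  rw [e b hb] at h2
  have hm : cm (Aop j a) (cm (Aop j b) (Qc (Jσ σ))) ∈ G 0 :=
    cm_skew_mem (Amat_skew a) (cm_skew_mem (Amat_skew b) (Qc_mem_G (isCS_Jσ σ)))
  rw [Qc, quad_formula _ _ _ _ h1 h2 (Aop_comm hj a b)] at hm
  have hne : -(2 * (2 * Complex.I * (2 * Complex.I))) ≠ 0 := by
    simp [Complex.I_ne_zero]
  have := Submodule.smul_mem _ (-(2 * (2 * Complex.I * (2 * Complex.I))))⁻¹ hm
  rw [smul_smul, inv_mul_cancel₀ hne, one_smul] at this
  simpa [Wd] using this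

theorem inG_append (hj : 3 ≤ j) (σ : Fin 3 → Bool) {p r : List Let} (hp : InG j p) (hr : InG j r)
    (hp' : 0 < p.countP (kept σ)) (hr' : 0 < r.countP (kept σ)) :
    ∃ m, Wd j (p ++ r) ∈ G (m + 1) := by
  obtain ⟨a, ha⟩ := hp
  obtain ⟨b, hb⟩ := hr
  refine ⟨b + (a + 1), ?_⟩
  have h := cm_mem_G b (a + 1) hb (cm_Qc_mem (isCS_Jσ σ) ha)
  rw [Qc, bracket_formula _ _ _ _ _ (cm_DJ_Wd σ p) (cm_DJ_Wd σ r) (Wd_comm hj p r)] at h
  have hne : 2 * wt σ p * wt σ r ≠ 0 := by
    simp [wt, Nat.pos_iff_ne_zero.mp hp', Nat.pos_iff_ne_zero.mp hr', Complex.I_ne_zero]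
  have := Submodule.smul_mem _ (2 * wt σ p * wt σ r)⁻¹ h
  rwa [smul_smul, inv_mul_cancel₀ hne, one_smul, ← Wd_append] at this

def w4 : List Let := [(0, false), (1, false)] ++ [(0, true), (1, true)]

def w6 : List Let := ([(0, false), (1, false)] ++ [(2, false), (0, true)]) ++ [(1, true), (2, true)]

/-- A balanced word of length `2L`. -/
def word : ℕ → List Let
  | 0 => []
  | 1 => []
  | 2 => w4
  | 3 => w6
  | L + 4 => w4 ++ word (L + 2)

def σ0 : Fin 3 → Bool := fun _ => false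

theorem inG_w4 (hj : 3 ≤ j) : ∃ m, Wd j w4 ∈ G (m + 1) := by
  refine inG_append hj (fun k => decide (k = 1)) ?_ ?_ (by decide) (by decide)
  · exact inG_pair hj σ0 _ _ rfl rfl
  · exact inG_pair hj (fun _ => true) _ _ rfl rfl

theorem inG_w6 (hj : 3 ≤ j) : ∃ m, Wd j w6 ∈ G (m + 1) := by
  refine inG_append hj (fun k => decide (k = 1)) ?_ ?_ (by decide) (by decide)
  · obtain ⟨m, hm⟩ := inG_append hj σ0 (p := [(0, false), (1, false)])
      (r := [(2, false), (0, true)]) (inG_pair hj σ0 _ _ rfl rfl)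
      (inG_pair hj (fun k => decide (k = 0)) _ _ rfl rfl) (by decide) (by decide)
    exact ⟨m + 1, hm⟩
  · exact inG_pair hj (fun _ => true) _ _ rfl rfl

theorem word_count : ∀ L, 2 ≤ L → 0 < (word L).countP (kept σ0)
  | 2, _ => by decide
  | 3, _ => by decide
  | L + 4, _ => by
    rw [word, List.countP_append]
    exact Nat.lt_of_lt_of_le (by decide : 0 < w4.countP (kept σ0)) (Nat.le_add_right _ _)

theorem word_length : ∀ L, 2 ≤ L → (word L).length = 2 * L
  | 2, _ => rfl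
  | 3, _ => rfl
  | L + 4, _ => by
    rw [word, List.length_append, word_length (L + 2) (by omega)]
    simp [w4]; omega

theorem inG_word (hj : 3 ≤ j) : ∀ L, 2 ≤ L → ∃ m, Wd j (word L) ∈ G (m + 1)
  | 2, _ => inG_w4 hj
  | 3, _ => inG_w6 hj
  | L + 4, _ => by
    obtain ⟨m, hm⟩ := inG_w4 hj
    obtain ⟨m', hm'⟩ := inG_word hj (L + 2) (by omega)
    rw [word]
    exact inG_append hj σ0 ⟨_, hm⟩ ⟨_, hm'⟩ (by decide) (word_count _ (by omega))

end Vale.Agent.P225.LieFull
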